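import Vale.Agent.P268.T.S708.KRe
import Vale.Agent.P268.T.H500.FSide

/-!
# P268, topological half, block B3: the imaginary part `bIm`

`bIm_smul`, `continuous_bIm`, and the exact coplanarity `bIm_eq_inner`:
`bIm δ (u, v) = ⟪v - φ_K u, nuV δ u⟫` whenever `‖v - φ_K u‖ ≤ δ / 4 * ‖u‖`, for every `K`.
-/

set_option linter.unusedSectionVars false

namespace Vale.Agent.P268.T.H291

open Set Filter Topology
open Vale.Agent.P268.T Vale.Agent.P268.T.K372

variable {ι : Type} [Fintype ι]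

/-- The coefficients of `bIm`. -/
theorem coeff_bIm_mem {δ : ℝ} (hδ : 0 ≤ δ) (u : EuclideanSpace ℝ ι) (j : ι) :
    0 ≤ max (|u j| - δ * ‖u‖) 0 / ‖u‖ ∧ max (|u j| - δ * ‖u‖) 0 / ‖u‖ ≤ 1 := by
  refine ⟨div_nonneg (le_max_right _ _) (norm_nonneg _), ?_⟩
  rcases (norm_nonneg u).eq_or_lt with h | h
  · rw [← h, div_zero]; exact zero_le_one
  · rw [div_le_one h]
    refine max_le ?_ h.le
    have h1 := K372.abs_apply_le u j
    have h2 := mul_nonneg hδ h.le
    linarith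

theorem bIm_smul (δ : ℝ) {r : ℝ} (hr : 0 ≤ r) (x : EuclideanSpace ℝ ι × EuclideanSpace ℝ ι) :
    bIm δ (r • x) = r * bIm δ x := by
  rcases hr.eq_or_lt with rfl | hr
  · rw [zero_smul, zero_mul]
    unfold bIm
    refine Finset.sum_eq_zero fun j _ => ?_
    have : turn ⟨(0 : EuclideanSpace ℝ ι × EuclideanSpace ℝ ι).1 j,
        (0 : EuclideanSpace ℝ ι × EuclideanSpace ℝ ι).2 j⟩ = 0 := by
      have h1 := turn_bound' ⟨(0 : EuclideanSpace ℝ ι × EuclideanSpace ℝ ι).1 j,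
        (0 : EuclideanSpace ℝ ι × EuclideanSpace ℝ ι).2 j⟩
      have h2 : |(⟨(0 : EuclideanSpace ℝ ι × EuclideanSpace ℝ ι).1 j,
        (0 : EuclideanSpace ℝ ι × EuclideanSpace ℝ ι).2 j⟩ : ℂ).re| = 0 := by simp
      rw [h2, mul_zero] at h1
      exact abs_nonpos_iff.mp h1
    rw [this, mul_zero]
  · unfold bIm
    rw [Finset.mul_sum]
    refine Finset.sum_congr rfl fun j _ => ?_
    have e1 : (r • x).1 j = r * x.1 j := rfl
    have e2 : (r • x).2 j = r * x.2 j := rfl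
    have e3 : ‖(r • x).1‖ = r * ‖x.1‖ := by
      rw [Prod.smul_fst, norm_smul, Real.norm_eq_abs, abs_of_pos hr]
    have e4 : (⟨r * x.1 j, r * x.2 j⟩ : ℂ) = r • (⟨x.1 j, x.2 j⟩ : ℂ) := by
      apply Complex.ext <;> simp
    rw [e1, e2, e3, e4, turn_smul' hr.le, abs_mul, abs_of_pos hr]
    have e5 : max (r * |x.1 j| - δ * (r * ‖x.1‖)) 0 = r * max (|x.1 j| - δ * ‖x.1‖) 0 := by
      rw [mul_max_of_nonneg _ _ hr.le, mul_zero]
      congr 1; ring
    rw [e5, mul_div_mul_left _ _ hr.ne']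
    ring

theorem continuous_bIm {δ : ℝ} (hδ : 0 ≤ δ) :
    Continuous (bIm δ : EuclideanSpace ℝ ι × EuclideanSpace ℝ ι → ℝ) := by
  unfold bIm
  refine continuous_finsetSum _ fun j _ => ?_
  have hj : Continuous fun x : EuclideanSpace ℝ ι × EuclideanSpace ℝ ι => x.1 j := by fun_prop
  have hj2 : Continuous fun x : EuclideanSpace ℝ ι × EuclideanSpace ℝ ι => x.2 j := by fun_prop
  have hturn : Continuous fun x : EuclideanSpace ℝ ι × EuclideanSpace ℝ ι =>
      turn ⟨x.1 j, x.2 j⟩ := by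
    refine continuous_turn'.comp ?_
    have : (fun x : EuclideanSpace ℝ ι × EuclideanSpace ℝ ι => (⟨x.1 j, x.2 j⟩ : ℂ)) =
        fun x => ((x.1 j : ℝ) : ℂ) + ((x.2 j : ℝ) : ℂ) * Complex.I := by
      funext x
      apply Complex.ext <;> simp
    rw [this]
    exact (Complex.continuous_ofReal.comp hj).add
      ((Complex.continuous_ofReal.comp hj2).mul continuous_const)
  rw [continuous_iff_continuousAt]
  intro x
  by_cases hx : x.1 = 0
  · have h0 : turn ⟨x.1 j, x.2 j⟩ = 0 := by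
      have h1 := turn_bound' ⟨x.1 j, x.2 j⟩
      have h2 : |(⟨x.1 j, x.2 j⟩ : ℂ).re| = 0 := by
        show |x.1 j| = 0
        rw [hx]; simp
      rw [h2, mul_zero] at h1
      exact abs_nonpos_iff.mp h1
    rw [ContinuousAt, h0, mul_zero]
    have h1 : Tendsto (fun x : EuclideanSpace ℝ ι × EuclideanSpace ℝ ι => |turn ⟨x.1 j, x.2 j⟩|)
        (𝓝 x) (𝓝 0) := by
      have := hturn.abs.continuousAt (x := x)
      rw [ContinuousAt, h0, abs_zero] at this
      exact this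
    refine squeeze_zero_norm (fun y => ?_) h1
    rw [Real.norm_eq_abs, abs_mul]
    obtain ⟨a1, a2⟩ := coeff_bIm_mem hδ y.1 j
    rw [abs_of_nonneg a1]
    exact mul_le_of_le_one_left (abs_nonneg _) a2
  · have hn : ‖x.1‖ ≠ 0 := norm_ne_zero_iff.mpr hx
    refine ContinuousAt.mul (ContinuousAt.div ?_ ?_ hn) hturn.continuousAt
    · exact (by fun_prop : Continuous fun x : EuclideanSpace ℝ ι × EuclideanSpace ℝ ι =>
        max (|x.1 j| - δ * ‖x.1‖) 0).continuousAt
    · exact (by fun_prop : Continuous fun x : EuclideanSpace ℝ ι × EuclideanSpace ℝ ι =>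
        ‖x.1‖).continuousAt

/-- **Exact coplanarity.** -/
theorem bIm_eq_inner {δ : ℝ} (hδ : 0 ≤ δ) (K : ι → ℕ) {u v : EuclideanSpace ℝ ι}
    (h : ‖v - phiV K u‖ ≤ δ / 4 * ‖u‖) :
    bIm δ (u, v) = inner ℝ (v - phiV K u) (nuV δ u) := by
  rw [K372.inner_eq]
  unfold bIm
  refine Finset.sum_congr rfl fun j _ => ?_
  have h1 := (K372.abs_apply_le (v - phiV K u) j).trans h
  have e1 : (v - phiV K u) j = v j - K j * max (u j) 0 := rfl
  rw [e1] at h1 ⊢
  rw [nuV_apply']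
  have hδu : 0 ≤ δ * ‖u‖ := mul_nonneg hδ (norm_nonneg _)
  show max (|u j| - δ * ‖u‖) 0 / ‖u‖ * turn ⟨u j, v j⟩ = _
  rcases lt_trichotomy (u j) 0 with hu | hu | hu
  · rw [abs_of_neg hu, max_eq_right hu.le, mul_zero, sub_zero] at *
    have e2 : max (u j - δ * ‖u‖) 0 = 0 := max_eq_right (by linarith)
    rw [e2, zero_sub]
    by_cases hlt : δ * ‖u‖ < -u j
    · have h2 : turn ⟨u j, v j⟩ = -v j := by
        refine turn_neg hu ?_
        linarith
      rw [h2]; ring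
    · have e3 : max (-u j - δ * ‖u‖) 0 = 0 := max_eq_right (by linarith)
      rw [e3]; simp
  · have e2 : max (u j - δ * ‖u‖) 0 = 0 := max_eq_right (by rw [hu]; linarith)
    have e3 : max (-u j - δ * ‖u‖) 0 = 0 := max_eq_right (by rw [hu]; linarith)
    have e4 : max (|u j| - δ * ‖u‖) 0 = 0 := max_eq_right (by rw [hu, abs_zero]; linarith)
    rw [e2, e3, e4]; simp
  · rw [abs_of_pos hu, max_eq_left hu.le] at *
    have e2 : max (-u j - δ * ‖u‖) 0 = 0 := max_eq_right (by linarith)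
    rw [e2, sub_zero]
    by_cases hlt : δ * ‖u‖ < u j
    · have h2 : turn ⟨u j, v j⟩ = v j - K j * u j := by
        refine turn_pos hu ?_
        linarith
      rw [h2]; ring
    · have e3 : max (u j - δ * ‖u‖) 0 = 0 := max_eq_right (by linarith)
      rw [e3]; simp

end Vale.Agent.P268.T.H291
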