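import Vale.Agent.P268.T.H291.Dirs2
import Vale.Agent.P268.T.K373.FL

/-!
# P268, topological half, block B3: combination of directions, sheets in general position

* `Sl.add_dir`, `Sl.smul_dir`: slopes along `a + b`, `lam • a`.
* `sl_dist_fibre`, `sl_dist_base`, `sl_dist_normal`: slopes of `‖v - c(t,u)‖` along `(0, -w₀)`,
  `(a, 0)` and `(0, n)`, `n ⊥ w₀`.
-/

set_option linter.unusedSectionVars false

namespace Vale.Agent.P268.T.H291

open Set Filter Topology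
open Vale.Agent.P268.T

section general

variable {E : Type*} [NormedAddCommGroup E] [NormedSpace ℝ E]
  {T : Type*} [TopologicalSpace T]
  {s : Set T} {g g₁ g₂ : T → E → ℝ} {t₀ : T} {x₀ a b : E} {r q r' q' : ℝ}

/-- Slopes along a sum of directions. -/
theorem Sl.add_dir (h₁ : Sl s g t₀ x₀ a r q) (h₂ : Sl s g t₀ x₀ b r' q') :
    Sl s g t₀ x₀ (a + b) (r + r') (q + q') := by
  obtain ⟨U, hU, δ, hδ, h₁⟩ := h₁
  obtain ⟨V, hV, δ', hδ', h₂⟩ := h₂
  obtain ⟨W, hW, δ'', hδ'', hWV, hst⟩ := exists_step hV a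
  refine ⟨U ∩ W, inter_mem hU hW, Min.min δ (Min.min δ' δ''), lt_min hδ (lt_min hδ' hδ''), ?_⟩
  filter_upwards [h₁, h₂] with t e1 e2 x hx l hl0 hl
  obtain ⟨a1, a2⟩ := e1 x hx.1 l hl0 (hl.trans (min_le_left _ _))
  have hm : x + l • a ∈ V := hst x hx.2 l (by
    rw [abs_of_nonneg hl0]
    exact hl.trans ((min_le_right _ _).trans (min_le_right _ _)))
  obtain ⟨b1, b2⟩ := e2 _ hm l hl0 (hl.trans ((min_le_right _ _).trans (min_le_left _ _)))
  have e : x + l • (a + b) = x + l • a + l • b := by rw [smul_add, add_assoc]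
  rw [e]
  constructor <;> linarith

/-- Slopes along a multiple of a direction. -/
theorem Sl.smul_dir (h : Sl s g t₀ x₀ a r q) {lam : ℝ} (hlam : 0 ≤ lam) :
    Sl s g t₀ x₀ (lam • a) (lam * r) (lam * q) := by
  obtain ⟨U, hU, δ, hδ, h⟩ := h
  refine ⟨U, hU, δ / (lam + 1), by positivity, ?_⟩
  filter_upwards [h] with t ht x hx l hl0 hl
  have hl1 : l * lam ≤ δ := by
    rw [le_div_iff₀ (by positivity)] at hl
    nlinarith
  obtain ⟨a1, a2⟩ := ht x hx (l * lam) (by positivity) hl1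
  rw [smul_smul]
  constructor <;> nlinarith

/-- A function which does not change along the direction. -/
theorem Sl.of_const (h : ∀ t x (l : ℝ), g t (x + l • a) = g t x) : Sl s g t₀ x₀ a 0 0 := by
  refine ⟨univ, univ_mem, 1, one_pos, Eventually.of_forall fun t x _ l _ _ => ?_⟩
  rw [h]; simp

/-- Multiplication by a constant of any sign, symmetric bounds. -/
theorem Sl.abs_bound (h : Sl s g t₀ x₀ a (-q) q) (c : ℝ) :
    Sl s (fun t x => c * g t x) t₀ x₀ a (-(|c| * q)) (|c| * q) := by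
  rcases le_total 0 c with hc | hc
  · have := h.const_mul hc
    rw [abs_of_nonneg hc]
    refine this.mono (by linarith) (by linarith)
  · have h1 := (h.const_mul (neg_nonneg.mpr hc)).neg
    rw [abs_of_nonpos hc]
    refine (h1.mono (by linarith) (by linarith)).congr
      ⟨univ, univ_mem, Eventually.of_forall fun t x _ => by ring⟩

end general

section sheets

variable {B V : Type*} [NormedAddCommGroup B] [NormedSpace ℝ B] [NormedAddCommGroup V]
  [InnerProductSpace ℝ V] {T : Type*} [TopologicalSpace T] {s : Set T} {t₀ : T} {u₀ : B} {v₀ : V}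
  {c : T → B → V}

/-- The displacement is close to its value at the point. -/
theorem near_w (hc : ContinuousWithinAt (fun p : T × B => c p.1 p.2) (s ×ˢ univ) (t₀, u₀)) {η : ℝ}
    (hη : 0 < η) : ∃ U ∈ 𝓝 ((u₀, v₀) : B × V), ∀ᶠ t in 𝓝[s] t₀, ∀ x ∈ U,
      ‖(x.2 - c t x.1) - (v₀ - c t₀ u₀)‖ ≤ η := by
  have h1 : ContinuousWithinAt (fun p : T × (B × V) => c p.1 p.2.1) (s ×ˢ univ)
      (t₀, ((u₀, v₀) : B × V)) := cwa_comp_fst (x₀ := ((u₀, v₀) : B × V)) hc
  have h2 : ContinuousWithinAt (fun p : T × (B × V) =>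
      ‖(p.2.2 - c p.1 p.2.1) - (v₀ - c t₀ u₀)‖) (s ×ˢ univ) (t₀, ((u₀, v₀) : B × V)) :=
    (((continuous_snd.comp continuous_snd).continuousWithinAt.sub h1).sub
      continuousWithinAt_const).norm
  have h3 := h2.eventually (gt_mem_nhds (show ‖(v₀ - c t₀ u₀) - (v₀ - c t₀ u₀)‖ < η by
    rw [sub_self, norm_zero]; exact hη))
  rw [nhdsWithin_prod_eq, nhdsWithin_univ, eventually_prod_iff] at h3
  obtain ⟨pa, ha, pb, hb, hab⟩ := h3
  exact ⟨{x | pb x}, hb, ha.mono fun t ht x hx => (hab ht hx).le⟩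

/-- Slope of the distance to a sheet along the fibre direction towards its centre. -/
theorem sl_dist_fibre (hc : ContinuousWithinAt (fun p : T × B => c p.1 p.2) (s ×ˢ univ) (t₀, u₀))
    {e : ℝ} (he : 0 < e) :
    Sl s (fun t (x : B × V) => ‖x.2 - c t x.1‖) t₀ (u₀, v₀) (0, -(v₀ - c t₀ u₀))
      (-‖v₀ - c t₀ u₀‖ - e) (-‖v₀ - c t₀ u₀‖ + e) := by
  obtain ⟨U, hU, h⟩ := near_w (v₀ := v₀) hc (η := e / 2) (by linarith)
  refine ⟨U, hU, 1, one_pos, ?_⟩
  filter_upwards [h] with t ht x hx l hl0 hl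
  have e1 : (x + l • ((0, -(v₀ - c t₀ u₀)) : B × V)).2 -
      c t (x + l • ((0, -(v₀ - c t₀ u₀)) : B × V)).1 =
      (x.2 - c t x.1) - l • (v₀ - c t₀ u₀) := by
    have e2 : (x + l • ((0, -(v₀ - c t₀ u₀)) : B × V)).1 = x.1 := by
      simp
    have e3 : (x + l • ((0, -(v₀ - c t₀ u₀)) : B × V)).2 = x.2 - l • (v₀ - c t₀ u₀) := by
      rw [Prod.snd_add, Prod.smul_snd]
      show x.2 + l • (-(v₀ - c t₀ u₀)) = _
      rw [smul_neg, ← sub_eq_add_neg]
    rw [e2, e3]; abel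
  rw [e1]
  obtain ⟨a1, a2⟩ := norm_step (x.2 - c t x.1) (v₀ - c t₀ u₀) hl0 hl
  have h4 := mul_le_mul_of_nonneg_left (ht x hx) hl0
  constructor <;> nlinarith

/-- Slope of the distance to a sheet along a base direction. -/
theorem sl_dist_base {L : ℝ} (hc : ∃ U ∈ 𝓝 u₀, ∀ᶠ t in 𝓝[s] t₀, ∀ u ∈ U, ∀ u' ∈ U,
    ‖c t u - c t u'‖ ≤ L * ‖u - u'‖) (a : B) :
    Sl s (fun t (x : B × V) => ‖x.2 - c t x.1‖) t₀ (u₀, v₀) (a, 0) (-(L * ‖a‖)) (L * ‖a‖) := by
  obtain ⟨U, hU, h⟩ := hc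
  obtain ⟨W, hW, δ, hδ, hWU, hst⟩ := exists_step hU a
  refine Sl.of_bound ⟨Prod.fst ⁻¹' W, continuous_fst.continuousAt hW, δ, hδ, ?_⟩
  filter_upwards [h] with t ht x hx l hl0 hl
  have e2 : (x + l • ((a, 0) : B × V)).1 = x.1 + l • a := rfl
  have e3 : (x + l • ((a, 0) : B × V)).2 = x.2 := by simp
  rw [e2, e3]
  have h1 := ht _ (hst x.1 hx l (by rwa [abs_of_nonneg hl0])) x.1 (hWU hx)
  rw [add_sub_cancel_left, norm_smul, Real.norm_eq_abs, abs_of_nonneg hl0] at h1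
  have h2 := abs_norm_sub_norm_le (x.2 - c t (x.1 + l • a)) (x.2 - c t x.1)
  have e4 : x.2 - c t (x.1 + l • a) - (x.2 - c t x.1) = -(c t (x.1 + l • a) - c t x.1) := by abel
  rw [e4, norm_neg] at h2
  linarith

/-- Slope of the distance to a sheet along a fibre direction orthogonal to the displacement. -/
theorem sl_dist_normal (hc : ContinuousWithinAt (fun p : T × B => c p.1 p.2) (s ×ˢ univ) (t₀, u₀))
    {n : V} (hw : v₀ - c t₀ u₀ ≠ 0) (hn : inner ℝ (v₀ - c t₀ u₀) n = 0) {e : ℝ} (he : 0 < e) :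
    Sl s (fun t (x : B × V) => ‖x.2 - c t x.1‖) t₀ (u₀, v₀) (0, n) (-e) e := by
  obtain ⟨ρ, hρ, h⟩ := norm_line_small hw hn he
  obtain ⟨U, hU, h'⟩ := near_w (v₀ := v₀) hc (η := ρ) hρ
  refine Sl.of_bound ⟨U, hU, ρ, hρ, ?_⟩
  filter_upwards [h'] with t ht x hx l hl0 hl
  have e2 : (x + l • ((0, n) : B × V)).1 = x.1 := by simp
  have e3 : (x + l • ((0, n) : B × V)).2 = x.2 + l • n := by simp
  have e4 : x.2 + l • n - c t x.1 = (x.2 - c t x.1) + l • n := by abel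
  rw [e2, e3, e4]
  have h1 := h _ (ht x hx) l (by rwa [abs_of_nonneg hl0])
  rwa [abs_of_nonneg hl0] at h1

/-- Functions of the base do not change along the fibre. -/
theorem sl_fibre_base {f : T → B → ℝ} (a : V) :
    Sl s (fun t (x : B × V) => f t x.1) t₀ (u₀, v₀) (0, a) 0 0 :=
  Sl.of_const fun t x l => by simp

/-- The norm of the base point. -/
theorem sl_norm_base (a : B × V) :
    Sl s (fun _ (x : B × V) => ‖x.1‖) t₀ (u₀, v₀) a (-‖a.1‖) ‖a.1‖ := by
  refine Sl.of_bound ⟨univ, univ_mem, 1, one_pos, Eventually.of_forall fun t x _ l hl0 _ => ?_⟩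
  have h1 := abs_norm_sub_norm_le (x + l • a).1 x.1
  refine h1.trans (le_of_eq ?_)
  rw [Prod.fst_add, Prod.smul_fst, add_sub_cancel_left, norm_smul, Real.norm_eq_abs,
    abs_of_nonneg hl0, mul_comm]

end sheets

end Vale.Agent.P268.T.H291
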