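import Vale.Agent.P268.T.H291.Det
import Vale.Agent.P268.T.H291.Dirs3

/-!
# P268, topological half, block B3: combination of the pieces

* `sl_comb`: slopes of `max (min (sup F) f) (sup Y)` at a zero, from the active pieces.
* `regAt_of_pieces`: regularity at a zero, from one growing direction `aR` and one fibre direction
  along which the real part has slope `o(1)` and the imaginary part grows.
* `sl_im_*`: the imaginary part `⟪v - c u, ν u⟫`.
-/

set_option linter.unusedSectionVars false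

namespace Vale.Agent.P268.T.H291

open Set Filter Topology
open Vale.Agent.P268.T

section general

variable {E : Type*} [NormedAddCommGroup E] [NormedSpace ℝ E]
  {T : Type*} [TopologicalSpace T]
  {s : Set T} {t₀ : T} {x₀ a : E} {r q : ℝ}

/-- Slopes of `max (min (sup F) f) (sup Y)` at a zero: only the active pieces matter. -/
theorem sl_comb {σ σ' : Type*} [Fintype σ] [Nonempty σ] [Fintype σ'] [Nonempty σ']
    {F : σ → T → E → ℝ} {f : T → E → ℝ} {Y : σ' → T → E → ℝ}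
    (cF : ∀ k, CtAt s (F k) t₀ x₀) (cf : CtAt s f t₀ x₀) (cY : ∀ k, CtAt s (Y k) t₀ x₀)
    (h0 : max (min (Finset.univ.sup' Finset.univ_nonempty fun k => F k t₀ x₀) (f t₀ x₀))
      (Finset.univ.sup' Finset.univ_nonempty fun k => Y k t₀ x₀) = 0)
    (hF : ∀ k, F k t₀ x₀ = 0 → (∀ l, F l t₀ x₀ ≤ 0) → 0 ≤ f t₀ x₀ → Sl s (F k) t₀ x₀ a r q)
    (hf : f t₀ x₀ = 0 → (∃ l, 0 ≤ F l t₀ x₀) → Sl s f t₀ x₀ a r q)
    (hY : ∀ k, Y k t₀ x₀ = 0 → (∀ l, Y l t₀ x₀ ≤ 0) → Sl s (Y k) t₀ x₀ a r q) :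
    Sl s (fun t x => max (min (Finset.univ.sup' Finset.univ_nonempty fun k => F k t x) (f t x))
      (Finset.univ.sup' Finset.univ_nonempty fun k => Y k t x)) t₀ x₀ a r q := by
  have cSF : ContinuousWithinAt (fun p : T × E => Finset.univ.sup' Finset.univ_nonempty
      fun k => F k p.1 p.2) (s ×ˢ univ) (t₀, x₀) :=
    ContinuousWithinAt.finset_sup'_apply Finset.univ_nonempty fun k _ => cF k
  have cSY : ContinuousWithinAt (fun p : T × E => Finset.univ.sup' Finset.univ_nonempty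
      fun k => Y k p.1 p.2) (s ×ˢ univ) (t₀, x₀) :=
    ContinuousWithinAt.finset_sup'_apply Finset.univ_nonempty fun k _ => cY k
  have cmin : ContinuousWithinAt (fun p : T × E => min (Finset.univ.sup' Finset.univ_nonempty
      fun k => F k p.1 p.2) (f p.1 p.2)) (s ×ˢ univ) (t₀, x₀) := cSF.min cf
  refine Sl.max' (g₁ := fun t x => min (Finset.univ.sup' Finset.univ_nonempty
      fun k => F k t x) (f t x)) (g₂ := fun t x => Finset.univ.sup' Finset.univ_nonempty
      fun k => Y k t x) cmin cSY ?_ ?_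
  · intro h1
    have h2 : min (Finset.univ.sup' Finset.univ_nonempty fun k => F k t₀ x₀) (f t₀ x₀) = 0 := by
      rw [← h0]; exact (max_eq_left h1).symm
    refine Sl.min' (g₁ := fun t x => Finset.univ.sup' Finset.univ_nonempty
      fun k => F k t x) (g₂ := f) cSF cf ?_ ?_
    · intro h3
      have h4 : (Finset.univ.sup' Finset.univ_nonempty fun k => F k t₀ x₀) = 0 := by
        rw [← h2]; exact (min_eq_left h3).symm
      refine Sl.sup' (h := F) Finset.univ_nonempty (fun k _ => cF k) fun k _ hk => ?_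
      have h5 : F k t₀ x₀ = 0 := by
        rw [← h4]
        exact le_antisymm (Finset.le_sup' (fun k => F k t₀ x₀) (Finset.mem_univ k))
          (Finset.sup'_le _ _ fun l hl => hk l hl)
      refine hF k h5 (fun l => ?_) ?_
      · rw [← h5]; exact hk l (Finset.mem_univ l)
      · have h6 : (Finset.univ.sup' Finset.univ_nonempty fun k => F k t₀ x₀) ≤ f t₀ x₀ := h3
        rwa [h4] at h6
    · intro h3
      have h4 : f t₀ x₀ = 0 := by rw [← h2]; exact (min_eq_right h3).symm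
      obtain ⟨l, -, hl⟩ := Finset.exists_mem_eq_sup' (Finset.univ_nonempty (α := σ))
        (fun k => F k t₀ x₀)
      refine hf h4 ⟨l, ?_⟩
      have h6 : f t₀ x₀ ≤ Finset.univ.sup' Finset.univ_nonempty fun k => F k t₀ x₀ := h3
      rw [hl, h4] at h6
      exact h6
  · intro h1
    have h2 : (Finset.univ.sup' Finset.univ_nonempty fun k => Y k t₀ x₀) = 0 := by
      rw [← h0]; exact (max_eq_right h1).symm
    refine Sl.sup' (h := Y) Finset.univ_nonempty (fun k _ => cY k) fun k _ hk => ?_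
    have h5 : Y k t₀ x₀ = 0 := by
      rw [← h2]
      exact le_antisymm (Finset.le_sup' (fun k => Y k t₀ x₀) (Finset.mem_univ k))
        (Finset.sup'_le _ _ fun l hl => hk l hl)
    refine hY k h5 fun l => ?_
    rw [← h5]; exact hk l (Finset.mem_univ l)

/-- Regularity from a growing direction of the real part and a growing direction of the imaginary
part along which the real part has arbitrarily small slope. -/
theorem regAt_of_pieces {F : T → E → ℂ} {aR aI : E} {r₁ r₂ L K₁ K₂ : ℝ} (hr₁ : 0 < r₁)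
    (hr₂ : 0 < r₂) (h1 : Sl s (fun t x => (F t x).re) t₀ x₀ aR r₁ K₁)
    (h2 : Sl s (fun t x => (F t x).im) t₀ x₀ aR (-L) L)
    (h3 : ∀ e > 0, Sl s (fun t x => (F t x).re) t₀ x₀ aI (-e) e)
    (h4 : Sl s (fun t x => (F t x).im) t₀ x₀ aI r₂ K₂) : RegAt s F t₀ x₀ := by
  have h2' : Sl s (fun t x => (F t x).im) t₀ x₀ aR (-|L|) |L| :=
    h2.mono (neg_le_neg (le_abs_self L)) (le_abs_self L)
  have hpos : 0 < r₁ * r₂ / (2 * (|L| + 1)) := by positivity
  refine RegAt.of_det hr₁ hr₂ (abs_nonneg L) hpos.le ?_ h1 h2' (h3 _ hpos) h4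
  have e : |L| * (r₁ * r₂ / (2 * (|L| + 1))) = r₁ * r₂ * (|L| / (2 * (|L| + 1))) := by
    field_simp
  rw [e]
  have h5 : |L| / (2 * (|L| + 1)) < 1 := by
    rw [div_lt_one (by positivity)]
    linarith [abs_nonneg L]
  have h6 : 0 < r₁ * r₂ := by positivity
  nlinarith

end general

section im

variable {B V : Type*} [NormedAddCommGroup B] [NormedSpace ℝ B] [NormedAddCommGroup V]
  [InnerProductSpace ℝ V] {T : Type*} [TopologicalSpace T] {s : Set T} {t₀ : T} {u₀ : B} {v₀ : V}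
  {c ν : B → V}

/-- The imaginary part grows along its normal. -/
theorem sl_im_normal (hν : ContinuousAt ν u₀) (hn : ν u₀ ≠ 0) :
    Sl s (fun _ (x : B × V) => inner ℝ (x.2 - c x.1) (ν x.1)) t₀ (u₀, v₀) (0, ν u₀)
      (‖ν u₀‖ ^ 2 / 2) (2 * ‖ν u₀‖ ^ 2) := by
  have hn0 : 0 < ‖ν u₀‖ := norm_pos_iff.mpr hn
  have h1 : ContinuousAt (fun u => inner ℝ (ν u₀) (ν u)) u₀ := ContinuousAt.inner (𝕜 := ℝ) continuousAt_const hν
  have h2 : inner ℝ (ν u₀) (ν u₀) = ‖ν u₀‖ ^ 2 := real_inner_self_eq_norm_sq _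
  have h3 : ∀ᶠ u in 𝓝 u₀, ‖ν u₀‖ ^ 2 / 2 < inner ℝ (ν u₀) (ν u) := by
    refine h1.eventually (lt_mem_nhds ?_)
    beta_reduce
    rw [h2]; nlinarith
  have h4 : ∀ᶠ u in 𝓝 u₀, inner ℝ (ν u₀) (ν u) < 2 * ‖ν u₀‖ ^ 2 := by
    refine h1.eventually (gt_mem_nhds ?_)
    beta_reduce
    rw [h2]; nlinarith
  have h5 : ∀ᶠ x in 𝓝 ((u₀, v₀) : B × V), ‖ν u₀‖ ^ 2 / 2 < inner ℝ (ν u₀) (ν x.1) ∧
      inner ℝ (ν u₀) (ν x.1) < 2 * ‖ν u₀‖ ^ 2 :=
    (continuous_fst (X := B) (Y := V)).continuousAt (x := ((u₀, v₀) : B × V)) |>.eventually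
      (h3.and h4)
  refine ⟨_, h5, 1, one_pos, Eventually.of_forall fun t x hx l hl0 _ => ?_⟩
  have e2 : (x + l • ((0, ν u₀) : B × V)).1 = x.1 := by simp
  have e3 : (x + l • ((0, ν u₀) : B × V)).2 = x.2 + l • ν u₀ := by simp
  have e4 : x.2 + l • ν u₀ - c x.1 = (x.2 - c x.1) + l • ν u₀ := by abel
  beta_reduce
  rw [e2, e3, e4, inner_add_left, inner_smul_left]
  simp only [conj_trivial]
  obtain ⟨a1, a2⟩ := hx
  constructor
  · nlinarith
  · nlinarith

/-- The imaginary part has bounded slopes. -/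
theorem sl_im_lip {T : Type*} [TopologicalSpace T] {s : Set T} {t₀ : T}
    (hc : LocLip s (fun (_ : T) => c) t₀ u₀) (hν : LocLip s (fun (_ : T) => ν) t₀ u₀)
    (cc : ContinuousAt c u₀) (cν : ContinuousAt ν u₀) (a : B × V) :
    ∃ L, Sl s (fun _ (x : B × V) => inner ℝ (x.2 - c x.1) (ν x.1)) t₀ (u₀, v₀) a (-L) L := by
  have h1 : LocLip s (fun (_ : T) (x : B × V) => x.2 - c x.1) t₀ (u₀, v₀) :=
    LocLip.sub locLip_snd (LocLip.comp_fst (x₀ := ((u₀, v₀) : B × V)) hc)
  have h2 : LocLip s (fun (_ : T) (x : B × V) => ν x.1) t₀ (u₀, v₀) :=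
    LocLip.comp_fst (x₀ := ((u₀, v₀) : B × V)) hν
  have c1 : ContinuousWithinAt (fun p : T × (B × V) => p.2.2 - c p.2.1) (s ×ˢ univ)
      (t₀, ((u₀, v₀) : B × V)) := by
    refine ContinuousAt.continuousWithinAt ?_
    have h3 : ContinuousAt (fun p : T × (B × V) => c p.2.1) (t₀, ((u₀, v₀) : B × V)) :=
      ContinuousAt.comp (g := c) (f := fun p : T × (B × V) => p.2.1) cc (by fun_prop)
    exact (by fun_prop : ContinuousAt (fun p : T × (B × V) => p.2.2) _).sub h3
  have c2 : ContinuousWithinAt (fun p : T × (B × V) => ν p.2.1) (s ×ˢ univ)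
      (t₀, ((u₀, v₀) : B × V)) := by
    refine ContinuousAt.continuousWithinAt ?_
    exact ContinuousAt.comp (g := ν) (f := fun p : T × (B × V) => p.2.1) cν (by fun_prop)
  obtain ⟨L, U, hU, h⟩ := LocLip.inner h1 h2 c1 c2
  refine ⟨L * ‖a‖, Sl.of_lip ⟨U, hU, h.mono fun t ht x hx y hy => ?_⟩⟩
  have := ht x hx y hy
  rwa [Real.norm_eq_abs] at this

end im

end Vale.Agent.P268.T.H291
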