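import Vale.Agent.P268.T.HEq
import Vale.Agent.P268.T.H121.Radial

/-!
# P268, topological half: regularity from slopes along two directions

`Sl s g t₀ x₀ a r q`: near `(t₀, x₀)` the real function `g` has slope between `r` and `q` along the
direction `a`.  This is stable under `max`, `min`, `sup'` (only the active functions matter).

`RegAt.of_fields`: a homogeneous locally Lipschitz family `F` of complex functions with
`0 ≤ (F t₀ x₀).re` is regular at `x₀` as soon as there are two directions `aR`, `aI` such that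
along `aR` the real part has positive slope and the imaginary part has slope `-(F t₀ x₀).im`, and
along `aI` the imaginary part has positive slope and the real part has bounded slope.
-/

set_option linter.unusedSectionVars false

namespace Vale.Agent.P268.T.H291

open Set Filter Topology
open Vale.Agent.P268.T

variable {E : Type*} [NormedAddCommGroup E] [NormedSpace ℝ E]
  {T : Type*} [TopologicalSpace T]

/-- Slope of `g` along `a` near `(t₀, x₀)`: between `r` and `q`. -/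
def Sl (s : Set T) (g : T → E → ℝ) (t₀ : T) (x₀ a : E) (r q : ℝ) : Prop :=
  ∃ U ∈ 𝓝 x₀, ∃ δ > 0, ∀ᶠ t in 𝓝[s] t₀, ∀ x ∈ U, ∀ l : ℝ, 0 ≤ l → l ≤ δ →
    r * l ≤ g t (x + l • a) - g t x ∧ g t (x + l • a) - g t x ≤ q * l

variable {s : Set T} {g g₁ g₂ : T → E → ℝ} {t₀ : T} {x₀ a : E} {r q r' q' : ℝ}

theorem Sl.mono (h : Sl s g t₀ x₀ a r q) (hr : r' ≤ r) (hq : q ≤ q') :
    Sl s g t₀ x₀ a r' q' := by
  obtain ⟨U, hU, δ, hδ, h⟩ := h
  refine ⟨U, hU, δ, hδ, ?_⟩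
  filter_upwards [h] with t ht x hx l hl0 hl
  obtain ⟨h1, h2⟩ := ht x hx l hl0 hl
  exact ⟨(mul_le_mul_of_nonneg_right hr hl0).trans h1,
    h2.trans (mul_le_mul_of_nonneg_right hq hl0)⟩

/-- A common neighbourhood in which small steps stay in a given neighbourhood. -/
theorem exists_step {U : Set E} (hU : U ∈ 𝓝 x₀) (a : E) :
    ∃ V ∈ 𝓝 x₀, ∃ δ > 0, V ⊆ U ∧ ∀ x ∈ V, ∀ l : ℝ, |l| ≤ δ → x + l • a ∈ U := by
  obtain ⟨R, hR, hRU⟩ := Metric.mem_nhds_iff.mp hU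
  refine ⟨Metric.ball x₀ (R / 2), Metric.ball_mem_nhds _ (by positivity),
    R / (2 * (‖a‖ + 1)), by positivity, ?_, fun x hx l hl => hRU ?_⟩
  · exact (Metric.ball_subset_ball (by linarith)).trans hRU
  · rw [Metric.mem_ball, dist_eq_norm] at hx ⊢
    have e : x + l • a - x₀ = (x - x₀) + l • a := by abel
    rw [e]
    have h1 : ‖l • a‖ ≤ R / (2 * (‖a‖ + 1)) * ‖a‖ := by
      rw [norm_smul, Real.norm_eq_abs]
      exact mul_le_mul_of_nonneg_right hl (norm_nonneg _)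
    have h2 : R / (2 * (‖a‖ + 1)) * ‖a‖ ≤ R / 2 := by
      have h3 : 0 < ‖a‖ + 1 := by positivity
      rw [div_mul_eq_mul_div, div_le_div_iff₀ (by positivity) (by norm_num)]
      nlinarith [norm_nonneg a]
    linarith [norm_add_le (x - x₀) (l • a)]

theorem Sl.congr (h : Sl s g₁ t₀ x₀ a r q)
    (hg : ∃ U ∈ 𝓝 x₀, ∀ᶠ t in 𝓝[s] t₀, ∀ x ∈ U, g₁ t x = g₂ t x) : Sl s g₂ t₀ x₀ a r q := by
  obtain ⟨U, hU, δ, hδ, h⟩ := h
  obtain ⟨V, hV, hg⟩ := hg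
  obtain ⟨W, hW, δ', hδ', hWV, hst⟩ := exists_step hV a
  refine ⟨U ∩ W, inter_mem hU hW, min δ δ', lt_min hδ hδ', ?_⟩
  filter_upwards [h, hg] with t ht hgt x hx l hl0 hl
  rw [← hgt x (hWV hx.2), ← hgt _ (hst x hx.2 l (by
    rw [abs_of_nonneg hl0]; exact hl.trans (min_le_right _ _)))]
  exact ht x hx.1 l hl0 (hl.trans (min_le_left _ _))

/-- Two sided version. -/
theorem Sl.two (h : Sl s g t₀ x₀ a r q) :
    ∃ U ∈ 𝓝 x₀, ∃ δ > 0, ∀ᶠ t in 𝓝[s] t₀, ∀ x ∈ U, ∀ l : ℝ, |l| ≤ δ →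
      r * l ^ 2 ≤ (g t (x + l • a) - g t x) * l ∧
        (g t (x + l • a) - g t x) * l ≤ q * l ^ 2 := by
  obtain ⟨U, hU, δ, hδ, h⟩ := h
  obtain ⟨W, hW, δ', hδ', hWU, hst⟩ := exists_step hU a
  refine ⟨W, hW, min δ δ', lt_min hδ hδ', ?_⟩
  filter_upwards [h] with t ht x hx l hl
  rcases le_total 0 l with h0 | h0
  · rw [abs_of_nonneg h0] at hl
    obtain ⟨h1, h2⟩ := ht x (hWU hx) l h0 (hl.trans (min_le_left _ _))
    constructor
    · calc r * l ^ 2 = (r * l) * l := by ring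
        _ ≤ _ := mul_le_mul_of_nonneg_right h1 h0
    · calc _ ≤ (q * l) * l := mul_le_mul_of_nonneg_right h2 h0
        _ = _ := by ring
  · have hl' := hl
    rw [abs_of_nonpos h0] at hl
    obtain ⟨h1, h2⟩ := ht (x + l • a) (hst x hx l (hl'.trans (min_le_right _ _))) (-l)
      (by linarith) (hl.trans (min_le_left _ _))
    have e : x + l • a + (-l) • a = x := by
      rw [neg_smul]; abel
    rw [e] at h1 h2
    constructor
    · calc r * l ^ 2 = (r * -l) * (-l) := by ring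
        _ ≤ (g t x - g t (x + l • a)) * (-l) := mul_le_mul_of_nonneg_right h1 (by linarith)
        _ = _ := by ring
    · calc _ = (g t x - g t (x + l • a)) * (-l) := by ring
        _ ≤ (q * -l) * (-l) := mul_le_mul_of_nonneg_right h2 (by linarith)
        _ = _ := by ring

/-- Opposite direction. -/
theorem Sl.neg_dir (h : Sl s g t₀ x₀ a r q) : Sl s g t₀ x₀ (-a) (-q) (-r) := by
  obtain ⟨U, hU, δ, hδ, h⟩ := h
  obtain ⟨W, hW, δ', hδ', hWU, hst⟩ := exists_step hU a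
  refine ⟨W, hW, min δ δ', lt_min hδ hδ', ?_⟩
  filter_upwards [h] with t ht x hx l hl0 hl
  have hm : x + (-l) • a ∈ U := hst x hx (-l) (by
    rw [abs_neg, abs_of_nonneg hl0]; exact hl.trans (min_le_right _ _))
  obtain ⟨h1, h2⟩ := ht _ hm l hl0 (hl.trans (min_le_left _ _))
  have e : x + (-l) • a + l • a = x := by rw [neg_smul]; abel
  rw [e] at h1 h2
  rw [smul_neg, ← neg_smul]
  constructor <;> linarith

theorem Sl.add (h₁ : Sl s g₁ t₀ x₀ a r q) (h₂ : Sl s g₂ t₀ x₀ a r' q') :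
    Sl s (fun t x => g₁ t x + g₂ t x) t₀ x₀ a (r + r') (q + q') := by
  obtain ⟨U, hU, δ, hδ, h₁⟩ := h₁
  obtain ⟨V, hV, δ', hδ', h₂⟩ := h₂
  refine ⟨U ∩ V, inter_mem hU hV, min δ δ', lt_min hδ hδ', ?_⟩
  filter_upwards [h₁, h₂] with t e1 e2 x hx l hl0 hl
  obtain ⟨a1, a2⟩ := e1 x hx.1 l hl0 (hl.trans (min_le_left _ _))
  obtain ⟨b1, b2⟩ := e2 x hx.2 l hl0 (hl.trans (min_le_right _ _))
  constructor <;> linarith

theorem Sl.neg (h : Sl s g t₀ x₀ a r q) : Sl s (fun t x => -g t x) t₀ x₀ a (-q) (-r) := by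
  obtain ⟨U, hU, δ, hδ, h⟩ := h
  refine ⟨U, hU, δ, hδ, ?_⟩
  filter_upwards [h] with t ht x hx l hl0 hl
  obtain ⟨h1, h2⟩ := ht x hx l hl0 hl
  constructor <;> linarith

theorem Sl.sub (h₁ : Sl s g₁ t₀ x₀ a r q) (h₂ : Sl s g₂ t₀ x₀ a r' q') :
    Sl s (fun t x => g₁ t x - g₂ t x) t₀ x₀ a (r - q') (q - r') := by
  have := h₁.add h₂.neg
  simpa only [sub_eq_add_neg] using this

theorem Sl.const_mul (h : Sl s g t₀ x₀ a r q) {c : ℝ} (hc : 0 ≤ c) :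
    Sl s (fun t x => c * g t x) t₀ x₀ a (c * r) (c * q) := by
  obtain ⟨U, hU, δ, hδ, h⟩ := h
  refine ⟨U, hU, δ, hδ, ?_⟩
  filter_upwards [h] with t ht x hx l hl0 hl
  obtain ⟨h1, h2⟩ := ht x hx l hl0 hl
  have e : c * g t (x + l • a) - c * g t x = c * (g t (x + l • a) - g t x) := by ring
  rw [e, mul_assoc, mul_assoc]
  exact ⟨mul_le_mul_of_nonneg_left h1 hc, mul_le_mul_of_nonneg_left h2 hc⟩

theorem Sl.const (c : T → ℝ) : Sl s (fun t _ => c t) t₀ x₀ a 0 0 := by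
  refine ⟨univ, univ_mem, 1, one_pos, Eventually.of_forall fun t x _ l _ _ => ?_⟩
  simp

theorem Sl.max (h₁ : Sl s g₁ t₀ x₀ a r q) (h₂ : Sl s g₂ t₀ x₀ a r q) :
    Sl s (fun t x => Max.max (g₁ t x) (g₂ t x)) t₀ x₀ a r q := by
  obtain ⟨U, hU, δ, hδ, h₁⟩ := h₁
  obtain ⟨V, hV, δ', hδ', h₂⟩ := h₂
  refine ⟨U ∩ V, inter_mem hU hV, Min.min δ δ', lt_min hδ hδ', ?_⟩
  filter_upwards [h₁, h₂] with t e1 e2 x hx l hl0 hl
  obtain ⟨a1, a2⟩ := e1 x hx.1 l hl0 (hl.trans (min_le_left _ _))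
  obtain ⟨b1, b2⟩ := e2 x hx.2 l hl0 (hl.trans (min_le_right _ _))
  constructor
  · rcases le_total (g₁ t x) (g₂ t x) with h | h
    · rw [max_eq_right h]
      linarith [le_max_right (g₁ t (x + l • a)) (g₂ t (x + l • a))]
    · rw [max_eq_left h]
      linarith [le_max_left (g₁ t (x + l • a)) (g₂ t (x + l • a))]
  · have c1 := le_max_left (g₁ t x) (g₂ t x)
    have c2 := le_max_right (g₁ t x) (g₂ t x)
    have : Max.max (g₁ t (x + l • a)) (g₂ t (x + l • a)) ≤ Max.max (g₁ t x) (g₂ t x) + q * l :=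
      max_le (by linarith) (by linarith)
    linarith

theorem Sl.min (h₁ : Sl s g₁ t₀ x₀ a r q) (h₂ : Sl s g₂ t₀ x₀ a r q) :
    Sl s (fun t x => Min.min (g₁ t x) (g₂ t x)) t₀ x₀ a r q := by
  have h := ((h₁.neg).max (h₂.neg)).neg
  rw [neg_neg, neg_neg] at h
  refine h.congr ⟨univ, univ_mem, Eventually.of_forall fun t x _ => ?_⟩
  rw [max_neg_neg, neg_neg]

/-- Strict inequalities persist. -/
theorem ev_lt (c₁ : ContinuousWithinAt (fun p : T × E => g₁ p.1 p.2) (s ×ˢ univ) (t₀, x₀))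
    (c₂ : ContinuousWithinAt (fun p : T × E => g₂ p.1 p.2) (s ×ˢ univ) (t₀, x₀))
    (h : g₁ t₀ x₀ < g₂ t₀ x₀) :
    ∃ U ∈ 𝓝 x₀, ∀ᶠ t in 𝓝[s] t₀, ∀ x ∈ U, g₁ t x < g₂ t x := by
  have h1 : ∀ᶠ p : T × E in 𝓝[s ×ˢ univ] (t₀, x₀), g₁ p.1 p.2 < g₂ p.1 p.2 :=
    Filter.Tendsto.eventually_lt c₁ c₂ h
  rw [nhdsWithin_prod_eq, nhdsWithin_univ, eventually_prod_iff] at h1
  obtain ⟨pa, ha, pb, hb, hab⟩ := h1
  exact ⟨{x | pb x}, hb, ha.mono fun t ht x hx => hab ht hx⟩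

/-- If `g₂` is strictly above `g₁` at the point, only `g₂` matters. -/
theorem Sl.max_right (h : Sl s g₂ t₀ x₀ a r q)
    (c₁ : ContinuousWithinAt (fun p : T × E => g₁ p.1 p.2) (s ×ˢ univ) (t₀, x₀))
    (c₂ : ContinuousWithinAt (fun p : T × E => g₂ p.1 p.2) (s ×ˢ univ) (t₀, x₀))
    (hlt : g₁ t₀ x₀ < g₂ t₀ x₀) :
    Sl s (fun t x => Max.max (g₁ t x) (g₂ t x)) t₀ x₀ a r q := by
  obtain ⟨U, hU, h1⟩ := ev_lt c₁ c₂ hlt
  exact h.congr ⟨U, hU, h1.mono fun t ht x hx => (max_eq_right (ht x hx).le).symm⟩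

theorem Sl.max_left (h : Sl s g₁ t₀ x₀ a r q)
    (c₁ : ContinuousWithinAt (fun p : T × E => g₁ p.1 p.2) (s ×ˢ univ) (t₀, x₀))
    (c₂ : ContinuousWithinAt (fun p : T × E => g₂ p.1 p.2) (s ×ˢ univ) (t₀, x₀))
    (hlt : g₂ t₀ x₀ < g₁ t₀ x₀) :
    Sl s (fun t x => Max.max (g₁ t x) (g₂ t x)) t₀ x₀ a r q := by
  obtain ⟨U, hU, h1⟩ := ev_lt c₂ c₁ hlt
  exact h.congr ⟨U, hU, h1.mono fun t ht x hx => (max_eq_left (ht x hx).le).symm⟩

/-- Version of `Sl.max` where only the active functions have to be known. -/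
theorem Sl.max' (c₁ : ContinuousWithinAt (fun p : T × E => g₁ p.1 p.2) (s ×ˢ univ) (t₀, x₀))
    (c₂ : ContinuousWithinAt (fun p : T × E => g₂ p.1 p.2) (s ×ˢ univ) (t₀, x₀))
    (h₁ : g₂ t₀ x₀ ≤ g₁ t₀ x₀ → Sl s g₁ t₀ x₀ a r q)
    (h₂ : g₁ t₀ x₀ ≤ g₂ t₀ x₀ → Sl s g₂ t₀ x₀ a r q) :
    Sl s (fun t x => Max.max (g₁ t x) (g₂ t x)) t₀ x₀ a r q := by
  rcases lt_trichotomy (g₁ t₀ x₀) (g₂ t₀ x₀) with h | h | h
  · exact (h₂ h.le).max_right c₁ c₂ h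
  · exact (h₁ h.ge).max (h₂ h.le)
  · exact (h₁ h.le).max_left c₁ c₂ h

/-- Version of `Sl.min` where only the active functions have to be known. -/
theorem Sl.min' (c₁ : ContinuousWithinAt (fun p : T × E => g₁ p.1 p.2) (s ×ˢ univ) (t₀, x₀))
    (c₂ : ContinuousWithinAt (fun p : T × E => g₂ p.1 p.2) (s ×ˢ univ) (t₀, x₀))
    (h₁ : g₁ t₀ x₀ ≤ g₂ t₀ x₀ → Sl s g₁ t₀ x₀ a r q)
    (h₂ : g₂ t₀ x₀ ≤ g₁ t₀ x₀ → Sl s g₂ t₀ x₀ a r q) :
    Sl s (fun t x => Min.min (g₁ t x) (g₂ t x)) t₀ x₀ a r q := by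
  have h := (Sl.max' (s := s) (g₁ := fun t x => -g₁ t x) (g₂ := fun t x => -g₂ t x) (a := a)
    (r := -q) (q := -r) c₁.neg c₂.neg (fun h => (h₁ (neg_le_neg_iff.mp h)).neg)
    (fun h => (h₂ (neg_le_neg_iff.mp h)).neg)).neg
  rw [neg_neg, neg_neg] at h
  refine h.congr ⟨univ, univ_mem, Eventually.of_forall fun t x _ => ?_⟩
  rw [max_neg_neg, neg_neg]

/-- Finite suprema: only the active functions matter. -/
theorem Sl.sup' {ι : Type*} {P : Finset ι} (hP : P.Nonempty) {h : ι → T → E → ℝ}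
    (c : ∀ i ∈ P, ContinuousWithinAt (fun p : T × E => h i p.1 p.2) (s ×ˢ univ) (t₀, x₀))
    (hs : ∀ i ∈ P, (∀ j ∈ P, h j t₀ x₀ ≤ h i t₀ x₀) → Sl s (h i) t₀ x₀ a r q) :
    Sl s (fun t x => P.sup' hP fun i => h i t x) t₀ x₀ a r q := by
  classical
  induction hP using Finset.Nonempty.cons_induction with
  | singleton i =>
    have := hs i (Finset.mem_singleton_self i) (fun j hj => by
      rw [Finset.mem_singleton.mp hj])
    exact this.congr ⟨univ, univ_mem, Eventually.of_forall fun t x _ => by simp⟩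
  | cons i Q hi hQ IH =>
    have hc : ∀ j ∈ Q, ContinuousWithinAt (fun p : T × E => h j p.1 p.2) (s ×ˢ univ) (t₀, x₀) :=
      fun j hj => c j (Finset.mem_cons.mpr (Or.inr hj))
    have hci := c i (Finset.mem_cons_self i Q)
    have hcQ : ContinuousWithinAt (fun p : T × E => Q.sup' hQ fun j => h j p.1 p.2) (s ×ˢ univ)
        (t₀, x₀) := ContinuousWithinAt.finset_sup'_apply hQ hc
    have key := Sl.max' (s := s) (g₁ := h i) (g₂ := fun t x => Q.sup' hQ fun j => h j t x) (a := a)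
      (r := r) (q := q) hci hcQ (fun h1 => hs i (Finset.mem_cons_self i Q) (fun j hj => by
        rcases Finset.mem_cons.mp hj with rfl | hj
        · exact le_rfl
        · exact (Finset.le_sup' (fun j => h j t₀ x₀) hj).trans h1))
      (fun h1 => IH hc (fun j hj hmax => hs j (Finset.mem_cons.mpr (Or.inr hj)) (fun k hk => by
        rcases Finset.mem_cons.mp hk with rfl | hk
        · exact h1.trans (Finset.sup'_le hQ _ fun m hm => hmax m hm)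
        · exact hmax k hk)))
    exact key.congr ⟨univ, univ_mem, Eventually.of_forall fun t x _ => by
      rw [Finset.sup'_cons hQ]⟩

/-- Slopes only depend on the parameter locally. -/
theorem Sl.mono_set {s' : Set T} (hs : s' ⊆ s) (h : Sl s g t₀ x₀ a r q) :
    Sl s' g t₀ x₀ a r q := by
  obtain ⟨U, hU, δ, hδ, h⟩ := h
  exact ⟨U, hU, δ, hδ, h.filter_mono (nhdsWithin_mono t₀ hs)⟩

theorem abs_le_of_two {D l k : ℝ} (_hk : 0 ≤ k) (h0 : l = 0 → D = 0) (h1 : -k * l ^ 2 ≤ D * l)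
    (h2 : D * l ≤ k * l ^ 2) : |D| ≤ k * |l| := by
  by_cases hl : l = 0
  · rw [h0 hl, hl]; simp
  · have hl0 : 0 < |l| := abs_pos.mpr hl
    have h3 : |D| * |l| ≤ (k * |l|) * |l| := by
      rw [← abs_mul, mul_assoc, ← sq, sq_abs, abs_le]
      constructor <;> linarith
    exact le_of_mul_le_mul_right h3 hl0

/-- The numerical part of `RegAt.of_dirs`. -/
theorem of_dirs_alg {r q Λ σ c m D1 D2 D3 D4 : ℝ} (hr : 0 < r) (hq : 0 ≤ q)
    (hΛ : Λ = (q + 1) ^ 2 / r ^ 2) (hσ : σ * Λ = 1)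
    (p1 : r * (Λ * c) ^ 2 ≤ D1 * (Λ * c))
    (b2 : |D2| ≤ σ * |Λ * c|)
    (b3 : |D3| ≤ q * |m|) (p4 : r * m ^ 2 ≤ D4 * m) :
    min (r * Λ / 2) (r / 2) * (c ^ 2 + m ^ 2) ≤ (D1 + D3) * c + (D2 + D4) * m := by
  have hΛ0 : 0 < Λ := by rw [hΛ]; positivity
  have hlabs : |Λ * c| = Λ * |c| := by rw [abs_mul, abs_of_pos hΛ0]
  have k1 : r * Λ * c ^ 2 ≤ D1 * c := by
    have e : D1 * (Λ * c) = Λ * (D1 * c) := by ring
    have e' : r * (Λ * c) ^ 2 = Λ * (r * Λ * c ^ 2) := by ring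
    rw [e, e'] at p1
    exact le_of_mul_le_mul_left p1 hΛ0
  have k3 : -(q * |m| * |c|) ≤ D3 * c := by
    have : |D3 * c| ≤ q * |m| * |c| := by
      rw [abs_mul]; exact mul_le_mul_of_nonneg_right b3 (abs_nonneg _)
    exact (abs_le.mp this).1
  have k2 : -(|c| * |m|) ≤ D2 * m := by
    have : |D2 * m| ≤ |c| * |m| := by
      rw [abs_mul]
      refine mul_le_mul_of_nonneg_right ?_ (abs_nonneg _)
      calc |D2| ≤ σ * |Λ * c| := b2
        _ = (σ * Λ) * |c| := by rw [hlabs]; ring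
        _ = |c| := by rw [hσ, one_mul]
    exact (abs_le.mp this).1
  have hcross : (q + 1) * (|c| * |m|) ≤ r * Λ / 2 * c ^ 2 + r / 2 * m ^ 2 := by
    have hΛr : r * Λ = (q + 1) ^ 2 / r := by rw [hΛ]; field_simp
    have h5 : 0 ≤ (r * |m| - (q + 1) * |c|) ^ 2 := sq_nonneg _
    have s1 : |c| ^ 2 = c ^ 2 := sq_abs _
    have s2 : |m| ^ 2 = m ^ 2 := sq_abs _
    have h6 : 2 * r * ((q + 1) * (|c| * |m|)) ≤ (q + 1) ^ 2 * c ^ 2 + r ^ 2 * m ^ 2 := by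
      nlinarith
    have h7 : 2 * r * (r * Λ / 2 * c ^ 2 + r / 2 * m ^ 2) =
        (q + 1) ^ 2 * c ^ 2 + r ^ 2 * m ^ 2 := by
      rw [hΛr]; field_simp
    have h8 : 0 < 2 * r := by positivity
    refine le_of_mul_le_mul_left ?_ h8
    rw [h7]; exact h6
  have k5 : min (r * Λ / 2) (r / 2) * (c ^ 2 + m ^ 2) ≤ r * Λ / 2 * c ^ 2 + r / 2 * m ^ 2 := by
    rw [mul_add]
    exact add_le_add (mul_le_mul_of_nonneg_right (min_le_left _ _) (sq_nonneg _))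
      (mul_le_mul_of_nonneg_right (min_le_right _ _) (sq_nonneg _))
  have e : (D1 + D3) * c + (D2 + D4) * m = D1 * c + D3 * c + D2 * m + D4 * m := by ring
  rw [e]
  have k6 : q * |m| * |c| + |c| * |m| = (q + 1) * (|c| * |m|) := by ring
  linarith

/-- Regularity at a zero (the value is not used) from slopes along two directions. -/
theorem RegAt.of_dirs {F : T → E → ℂ} {aR aI : E} {r q : ℝ} (hr : 0 < r) (hq : 0 ≤ q)
    (h1 : Sl s (fun t x => (F t x).re) t₀ x₀ aR r q)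
    (h2 : ∀ σ > 0, Sl s (fun t x => (F t x).im) t₀ x₀ aR (-σ) σ)
    (h3 : Sl s (fun t x => (F t x).re) t₀ x₀ aI (-q) q)
    (h4 : Sl s (fun t x => (F t x).im) t₀ x₀ aI r q) : RegAt s F t₀ x₀ := by
  -- constants
  obtain ⟨Λ, hΛ⟩ : ∃ Λ : ℝ, Λ = (q + 1) ^ 2 / r ^ 2 := ⟨_, rfl⟩
  have hΛ0 : 0 < Λ := by rw [hΛ]; positivity
  obtain ⟨σ, hσ⟩ : ∃ σ : ℝ, σ = 1 / Λ := ⟨_, rfl⟩
  have hσ0 : 0 < σ := by rw [hσ]; positivity
  have hσΛ : σ * Λ = 1 := by rw [hσ]; field_simp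
  obtain ⟨U1, hU1, δ1, hδ1, e1⟩ := h1.two
  obtain ⟨U2, hU2, δ2, hδ2, e2⟩ := (h2 σ hσ0).two
  obtain ⟨U3, hU3, δ3, hδ3, e3⟩ := h3.two
  obtain ⟨U4, hU4, δ4, hδ4, e4⟩ := h4.two
  obtain ⟨W, hW, δ5, hδ5, hWU, hst⟩ := exists_step (inter_mem hU3 hU4) (aR)
  obtain ⟨μ, hμ0, hm1, hm2, hm3, hm4, hm5⟩ : ∃ μ : ℝ, 0 < μ ∧ μ ≤ δ1 ∧ μ ≤ δ2 ∧ μ ≤ δ3 ∧
      μ ≤ δ4 ∧ μ ≤ δ5 :=
    ⟨min (min (min δ1 δ2) (min δ3 δ4)) δ5,
      lt_min (lt_min (lt_min hδ1 hδ2) (lt_min hδ3 hδ4)) hδ5,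
      (min_le_left _ _).trans ((min_le_left _ _).trans (min_le_left _ _)),
      (min_le_left _ _).trans ((min_le_left _ _).trans (min_le_right _ _)),
      (min_le_left _ _).trans ((min_le_right _ _).trans (min_le_left _ _)),
      (min_le_left _ _).trans ((min_le_right _ _).trans (min_le_right _ _)),
      min_le_right _ _⟩
  obtain ⟨δ, hδ⟩ : ∃ δ : ℝ, δ = μ / (Λ + 1) := ⟨_, rfl⟩
  have hδ0 : 0 < δ := by rw [hδ]; positivity
  have hδΛ : δ * (Λ + 1) = μ := by rw [hδ]; field_simp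
  obtain ⟨A, hA⟩ : ∃ A : ℂ →L[ℝ] E, ∀ c : ℂ, A c = (Λ * c.re) • aR + c.im • aI := by
    refine ⟨Complex.reCLM.smulRight (Λ • aR) + Complex.imCLM.smulRight aI, fun c => ?_⟩
    rw [_root_.add_apply, ContinuousLinearMap.smulRight_apply,
      ContinuousLinearMap.smulRight_apply, Complex.reCLM_apply, Complex.imCLM_apply, smul_smul,
      mul_comm]
  refine RegAt.of_monotone_small (κ := min (r * Λ / 2) (r / 2)) (Λ := (q * Λ + q) * 2 + 2)
    (lt_min (by positivity) (by positivity)) hδ0 A ⟨U1 ∩ U2 ∩ W, inter_mem (inter_mem hU1 hU2) hW, ?_⟩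
  filter_upwards [e1, e2, e3, e4] with t t1 t2 t3 t4 x hx c hc
  have hcr : |c.re| ≤ ‖c‖ := Complex.abs_re_le_norm c
  have hci : |c.im| ≤ ‖c‖ := Complex.abs_im_le_norm c
  have hl : |Λ * c.re| ≤ μ := by
    rw [abs_mul, abs_of_pos hΛ0, ← hδΛ]
    calc Λ * |c.re| ≤ Λ * δ := mul_le_mul_of_nonneg_left (hcr.trans hc) hΛ0.le
      _ ≤ _ := by nlinarith
  have hm : |c.im| ≤ μ := by
    rw [← hδΛ]
    calc |c.im| ≤ δ := hci.trans hc
      _ ≤ _ := by nlinarith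
  obtain ⟨y, hy⟩ : ∃ y : E, y = x + (Λ * c.re) • aR := ⟨_, rfl⟩
  have hyU : y ∈ U3 ∩ U4 := by rw [hy]; exact hst x hx.2 _ (hl.trans hm5)
  have hxA : x + A c = y + c.im • aI := by rw [hA, hy]; abel
  obtain ⟨p1, p1'⟩ := t1 x hx.1.1 _ (hl.trans hm1)
  obtain ⟨p2, p2'⟩ := t2 x hx.1.2 _ (hl.trans hm2)
  obtain ⟨p3, p3'⟩ := t3 y hyU.1 _ (hm.trans hm3)
  obtain ⟨p4, p4'⟩ := t4 y hyU.2 _ (hm.trans hm4)
  rw [← hy] at p1 p1' p2 p2'
  rw [inner_complex, hxA]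
  have hy0 : Λ * c.re = 0 → y = x := fun h => by rw [hy, h, zero_smul, add_zero]
  have hym0 : c.im = 0 → y + c.im • aI = y := fun h => by rw [h, zero_smul, add_zero]
  obtain ⟨D1, hD1⟩ : ∃ D1 : ℝ, D1 = (F t y).re - (F t x).re := ⟨_, rfl⟩
  obtain ⟨D2, hD2⟩ : ∃ D2 : ℝ, D2 = (F t y).im - (F t x).im := ⟨_, rfl⟩
  obtain ⟨D3, hD3⟩ : ∃ D3 : ℝ, D3 = (F t (y + c.im • aI)).re - (F t y).re := ⟨_, rfl⟩
  obtain ⟨D4, hD4⟩ : ∃ D4 : ℝ, D4 = (F t (y + c.im • aI)).im - (F t y).im := ⟨_, rfl⟩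
  have hre : (F t (y + c.im • aI) - F t x).re = D1 + D3 := by
    rw [Complex.sub_re, hD1, hD3]; ring
  have him : (F t (y + c.im • aI) - F t x).im = D2 + D4 := by
    rw [Complex.sub_im, hD2, hD4]; ring
  have d1 : Λ * c.re = 0 → D1 = 0 := fun h => by rw [hD1, hy0 h, sub_self]
  have d2 : Λ * c.re = 0 → D2 = 0 := fun h => by rw [hD2, hy0 h, sub_self]
  have d3 : c.im = 0 → D3 = 0 := fun h => by rw [hD3, hym0 h, sub_self]
  have d4 : c.im = 0 → D4 = 0 := fun h => by rw [hD4, hym0 h, sub_self]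
  rw [← hD1] at p1 p1'
  rw [← hD2] at p2 p2'
  rw [← hD3] at p3 p3'
  rw [← hD4] at p4 p4'
  rw [hre, him]
  clear hD1 hD2 hD3 hD4 hxA hy0 hym0 hy t1 t2 t3 t4 e1 e2 e3 e4
  have b1 : |D1| ≤ q * |Λ * c.re| := abs_le_of_two hq d1
    (by have := mul_nonneg hr.le (sq_nonneg (Λ * c.re))
        have := mul_nonneg hq (sq_nonneg (Λ * c.re)); linarith) p1'
  have b2 : |D2| ≤ σ * |Λ * c.re| := abs_le_of_two hσ0.le d2 p2 p2'
  have b3 : |D3| ≤ q * |c.im| := abs_le_of_two hq d3 p3 p3'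
  have b4 : |D4| ≤ q * |c.im| := abs_le_of_two hq d4
    (by have := mul_nonneg hr.le (sq_nonneg c.im)
        have := mul_nonneg hq (sq_nonneg c.im); linarith) p4'
  have hn : ‖c‖ ^ 2 = c.re ^ 2 + c.im ^ 2 := by
    rw [Complex.sq_norm, Complex.normSq_apply]; ring
  constructor
  · rw [hn]
    exact of_dirs_alg hr hq hΛ hσΛ p1 b2 b3 p4
  · refine (Complex.norm_le_abs_re_add_abs_im _).trans ?_
    rw [hre, him]
    have hc0 := norm_nonneg c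
    have c1 : |D1| ≤ q * Λ * ‖c‖ := by
      calc |D1| ≤ q * |Λ * c.re| := b1
        _ = q * Λ * |c.re| := by rw [abs_mul, abs_of_pos hΛ0]; ring
        _ ≤ _ := mul_le_mul_of_nonneg_left hcr (by positivity)
    have c2 : |D2| ≤ ‖c‖ := by
      calc |D2| ≤ σ * |Λ * c.re| := b2
        _ = (σ * Λ) * |c.re| := by rw [abs_mul, abs_of_pos hΛ0]; ring
        _ ≤ _ := by rw [hσΛ, one_mul]; exact hcr
    have c3 : |D3| ≤ q * ‖c‖ := b3.trans (mul_le_mul_of_nonneg_left hci hq)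
    have c4 : |D4| ≤ q * ‖c‖ := b4.trans (mul_le_mul_of_nonneg_left hci hq)
    have g1 : |D1 + D3| ≤ |D1| + |D3| := abs_add_le _ _
    have g2 : |D2 + D4| ≤ |D2| + |D4| := abs_add_le _ _
    have g3 : 0 ≤ q * Λ * ‖c‖ := by positivity
    linarith

end Vale.Agent.P268.T.H291
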