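import Vale.Agent.P268.T.H291.Core

/-!
# P268, topological half: robust two-direction criterion

`RegAt.of_det`: real slope `≥ r₁` along `aR`, imaginary slope `≥ r₂` along `aI`, cross slopes
bounded by `σ` (imaginary part along `aR`) and `q` (real part along `aI`) with `σ q < r₁ r₂`.
No homogeneity, no Lipschitz condition, no condition on the value at the point.
-/

set_option linter.unusedSectionVars false

namespace Vale.Agent.P268.T.H291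

open Set Filter Topology
open Vale.Agent.P268.T

variable {E : Type*} [NormedAddCommGroup E] [NormedSpace ℝ E]
  {T : Type*} [TopologicalSpace T]

variable {s : Set T} {g g₁ g₂ : T → E → ℝ} {t₀ : T} {x₀ a : E} {r q r' q' : ℝ}

/-- Constants for the robust criterion. -/
theorem det_consts {r₁ r₂ σ q : ℝ} (h1 : 0 < r₁) (h2 : 0 < r₂) (hσ : 0 ≤ σ) (hq : 0 ≤ q)
    (hdet : σ * q < r₁ * r₂) :
    ∃ Λ κ q' : ℝ, 0 < Λ ∧ 0 < κ ∧ σ * Λ ≤ q' ∧ q ≤ q' ∧ κ ≤ r₁ * Λ ∧ κ ≤ r₂ ∧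
      q' ^ 2 ≤ (r₁ * Λ - κ) * (r₂ - κ) ∧ 0 < r₁ * Λ - κ := by
  -- make `σ` and `q` positive
  obtain ⟨τ, hτ0, hτ⟩ : ∃ τ : ℝ, 0 < τ ∧ (σ + τ) * (q + τ) < r₁ * r₂ := by
    have hd : 0 < r₁ * r₂ - σ * q := by linarith
    refine ⟨min 1 ((r₁ * r₂ - σ * q) / (2 * (σ + q + 1))), by positivity, ?_⟩
    set τ := min 1 ((r₁ * r₂ - σ * q) / (2 * (σ + q + 1))) with hτ
    have ht0 : 0 < τ := by positivity
    have ht1 : τ ≤ 1 := min_le_left _ _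
    have ht2 : τ * (2 * (σ + q + 1)) ≤ r₁ * r₂ - σ * q := by
      rw [← le_div_iff₀ (by positivity)]
      exact min_le_right _ _
    have ht3 : τ * τ ≤ τ := by nlinarith
    have ht4 : 0 < τ * (σ + q + 1) := by positivity
    nlinarith
  obtain ⟨σ', hσ'⟩ : ∃ σ', σ' = σ + τ := ⟨_, rfl⟩
  obtain ⟨q', hq'⟩ : ∃ q', q' = q + τ := ⟨_, rfl⟩
  have hσ'0 : 0 < σ' := by rw [hσ']; linarith
  have hq'0 : 0 < q' := by rw [hq']; linarith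
  rw [← hσ', ← hq'] at hτ
  obtain ⟨Λ, hΛ⟩ : ∃ Λ, Λ = q' / σ' := ⟨_, rfl⟩
  have hΛ0 : 0 < Λ := by rw [hΛ]; positivity
  have hΛσ : σ' * Λ = q' := by rw [hΛ]; field_simp
  obtain ⟨A, hA⟩ : ∃ A, A = r₁ * Λ := ⟨_, rfl⟩
  have hA0 : 0 < A := by rw [hA]; positivity
  have hAr : q' ^ 2 < A * r₂ := by
    have e1 : q' ^ 2 = (σ' * q') * Λ := by
      calc q' ^ 2 = q' * q' := by ring
        _ = q' * (σ' * Λ) := by rw [hΛσ]
        _ = _ := by ring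
    rw [e1, hA]
    calc σ' * q' * Λ < (r₁ * r₂) * Λ := mul_lt_mul_of_pos_right hτ hΛ0
      _ = _ := by ring
  obtain ⟨κ, hκ⟩ : ∃ κ, κ = (A * r₂ - q' ^ 2) / (A + r₂) := ⟨_, rfl⟩
  have hs : 0 < A + r₂ := by linarith
  have hκ0 : 0 < κ := by rw [hκ]; exact div_pos (by linarith) hs
  have hκe : κ * (A + r₂) = A * r₂ - q' ^ 2 := by rw [hκ]; field_simp
  have hκA : κ < A := by
    rw [hκ, div_lt_iff₀ hs]; nlinarith [sq_nonneg q']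
  have hκr : κ < r₂ := by
    rw [hκ, div_lt_iff₀ hs]; nlinarith [sq_nonneg q']
  refine ⟨Λ, κ, q', hΛ0, hκ0, ?_, ?_, ?_, hκr.le, ?_, ?_⟩
  · rw [← hΛσ]
    exact mul_le_mul_of_nonneg_right (by rw [hσ']; linarith) hΛ0.le
  · rw [hq']; linarith
  · rw [← hA]; exact hκA.le
  · rw [← hA]
    have e : (A - κ) * (r₂ - κ) = q' ^ 2 + κ ^ 2 := by
      calc (A - κ) * (r₂ - κ) = A * r₂ - κ * (A + r₂) + κ ^ 2 := by ring
        _ = _ := by rw [hκe]; ring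
    rw [e]
    nlinarith [sq_nonneg κ]
  · rw [← hA]; linarith

/-- The numerical part of `RegAt.of_det`. -/
theorem of_det_alg {r₁ r₂ σ q q' Λ κ c m D1 D2 D3 D4 : ℝ} (hq : 0 ≤ q)
    (hΛ0 : 0 < Λ) (hσΛ : σ * Λ ≤ q') (hqq : q ≤ q')
    (hκr : κ ≤ r₂) (hdisc : q' ^ 2 ≤ (r₁ * Λ - κ) * (r₂ - κ)) (hpos : 0 < r₁ * Λ - κ)
    (p1 : r₁ * (Λ * c) ^ 2 ≤ D1 * (Λ * c))
    (b2 : |D2| ≤ σ * |Λ * c|)
    (b3 : |D3| ≤ q * |m|) (p4 : r₂ * m ^ 2 ≤ D4 * m) :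
    κ * (c ^ 2 + m ^ 2) ≤ (D1 + D3) * c + (D2 + D4) * m := by
  have hlabs : |Λ * c| = Λ * |c| := by rw [abs_mul, abs_of_pos hΛ0]
  have hq'0 : 0 ≤ q' := hq.trans hqq
  have k1 : r₁ * Λ * c ^ 2 ≤ D1 * c := by
    have e : D1 * (Λ * c) = Λ * (D1 * c) := by ring
    have e' : r₁ * (Λ * c) ^ 2 = Λ * (r₁ * Λ * c ^ 2) := by ring
    rw [e, e'] at p1
    exact le_of_mul_le_mul_left p1 hΛ0
  have k3 : -(q' * (|c| * |m|)) ≤ D3 * c := by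
    have : |D3 * c| ≤ q' * (|c| * |m|) := by
      rw [abs_mul]
      calc |D3| * |c| ≤ (q * |m|) * |c| := mul_le_mul_of_nonneg_right b3 (abs_nonneg _)
        _ = q * (|c| * |m|) := by ring
        _ ≤ _ := mul_le_mul_of_nonneg_right hqq (by positivity)
    exact (abs_le.mp this).1
  have k2 : -(q' * (|c| * |m|)) ≤ D2 * m := by
    have : |D2 * m| ≤ q' * (|c| * |m|) := by
      rw [abs_mul]
      calc |D2| * |m| ≤ (σ * |Λ * c|) * |m| := mul_le_mul_of_nonneg_right b2 (abs_nonneg _)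
        _ = (σ * Λ) * (|c| * |m|) := by rw [hlabs]; ring
        _ ≤ _ := mul_le_mul_of_nonneg_right hσΛ (by positivity)
    exact (abs_le.mp this).1
  -- the quadratic form
  obtain ⟨a, ha⟩ : ∃ a, a = r₁ * Λ - κ := ⟨_, rfl⟩
  obtain ⟨b, hb⟩ : ∃ b, b = r₂ - κ := ⟨_, rfl⟩
  rw [← ha, ← hb] at hdisc
  rw [← ha] at hpos
  have hb0 : 0 ≤ b := by rw [hb]; linarith
  have k5 : 2 * (q' * (|c| * |m|)) ≤ a * c ^ 2 + b * m ^ 2 := by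
    have s1 : |c| ^ 2 = c ^ 2 := sq_abs _
    have s2 : |m| ^ 2 = m ^ 2 := sq_abs _
    rw [← s1, ← s2]
    have h5 : 0 ≤ (a * |c| - q' * |m|) ^ 2 := sq_nonneg _
    have h6 : q' ^ 2 * |m| ^ 2 ≤ a * b * |m| ^ 2 := mul_le_mul_of_nonneg_right hdisc (sq_nonneg _)
    refine le_of_mul_le_mul_left ?_ hpos
    nlinarith
  have e : (D1 + D3) * c + (D2 + D4) * m = D1 * c + D3 * c + D2 * m + D4 * m := by ring
  rw [e]
  have e2 : a * c ^ 2 + b * m ^ 2 = r₁ * Λ * c ^ 2 + r₂ * m ^ 2 - κ * (c ^ 2 + m ^ 2) := by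
    rw [ha, hb]; ring
  linarith

/-- **Robust two-direction criterion.** -/
theorem RegAt.of_det {F : T → E → ℂ} {aR aI : E} {r₁ r₂ σ q K₁ K₂ : ℝ} (hr₁ : 0 < r₁)
    (hr₂ : 0 < r₂) (hσ : 0 ≤ σ) (hq : 0 ≤ q) (hdet : σ * q < r₁ * r₂)
    (h1 : Sl s (fun t x => (F t x).re) t₀ x₀ aR r₁ K₁)
    (h2 : Sl s (fun t x => (F t x).im) t₀ x₀ aR (-σ) σ)
    (h3 : Sl s (fun t x => (F t x).re) t₀ x₀ aI (-q) q)
    (h4 : Sl s (fun t x => (F t x).im) t₀ x₀ aI r₂ K₂) : RegAt s F t₀ x₀ := by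
  obtain ⟨Λ, κ, q', hΛ0, hκ0, hσΛ, hqq, hκ1, hκ2, hdisc, hpos⟩ :=
    det_consts hr₁ hr₂ hσ hq hdet
  obtain ⟨U1, hU1, δ1, hδ1, e1⟩ := h1.two
  obtain ⟨U2, hU2, δ2, hδ2, e2⟩ := h2.two
  obtain ⟨U3, hU3, δ3, hδ3, e3⟩ := h3.two
  obtain ⟨U4, hU4, δ4, hδ4, e4⟩ := h4.two
  obtain ⟨W, hW, δ5, hδ5, hWU, hst⟩ := exists_step (inter_mem hU3 hU4) (aR)
  obtain ⟨μ, hμ0, hm1, hm2, hm3, hm4, hm5⟩ : ∃ μ : ℝ, 0 < μ ∧ μ ≤ δ1 ∧ μ ≤ δ2 ∧ μ ≤ δ3 ∧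
      μ ≤ δ4 ∧ μ ≤ δ5 :=
    ⟨min (min (min δ1 δ2) (min δ3 δ4)) δ5,
      lt_min (lt_min (lt_min hδ1 hδ2) (lt_min hδ3 hδ4)) hδ5,
      (min_le_left _ _).trans ((min_le_left _ _).trans (min_le_left _ _)),
      (min_le_left _ _).trans ((min_le_left _ _).trans (min_le_right _ _)),
      (min_le_left _ _).trans ((min_le_right _ _).trans (min_le_left _ _)),
      (min_le_left _ _).trans ((min_le_right _ _).trans (min_le_right _ _)),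
      min_le_right _ _⟩
  obtain ⟨δ, hδ⟩ : ∃ δ : ℝ, δ = μ / (Λ + 1) := ⟨_, rfl⟩
  have hδ0 : 0 < δ := by rw [hδ]; positivity
  have hδΛ : δ * (Λ + 1) = μ := by rw [hδ]; field_simp
  obtain ⟨K₁', hK₁', hK10, hK1r⟩ : ∃ K₁' : ℝ, K₁ ≤ K₁' ∧ 0 ≤ K₁' ∧ -K₁' ≤ r₁ :=
    ⟨|K₁|, le_abs_self _, abs_nonneg _, by linarith [abs_nonneg K₁]⟩
  obtain ⟨K₂', hK₂', hK20, hK2r⟩ : ∃ K₂' : ℝ, K₂ ≤ K₂' ∧ 0 ≤ K₂' ∧ -K₂' ≤ r₂ :=
    ⟨|K₂|, le_abs_self _, abs_nonneg _, by linarith [abs_nonneg K₂]⟩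
  obtain ⟨A, hA⟩ : ∃ A : ℂ →L[ℝ] E, ∀ c : ℂ, A c = (Λ * c.re) • aR + c.im • aI := by
    refine ⟨Complex.reCLM.smulRight (Λ • aR) + Complex.imCLM.smulRight aI, fun c => ?_⟩
    rw [_root_.add_apply, ContinuousLinearMap.smulRight_apply,
      ContinuousLinearMap.smulRight_apply, Complex.reCLM_apply, Complex.imCLM_apply, smul_smul,
      mul_comm]
  refine RegAt.of_monotone_small (κ := κ) (Λ := K₁' * Λ + σ * Λ + q + K₂')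
    hκ0 hδ0 A ⟨U1 ∩ U2 ∩ W, inter_mem (inter_mem hU1 hU2) hW, ?_⟩
  filter_upwards [e1, e2, e3, e4] with t t1 t2 t3 t4 x hx c hc
  have hcr : |c.re| ≤ ‖c‖ := Complex.abs_re_le_norm c
  have hci : |c.im| ≤ ‖c‖ := Complex.abs_im_le_norm c
  have hl : |Λ * c.re| ≤ μ := by
    rw [abs_mul, abs_of_pos hΛ0, ← hδΛ]
    calc Λ * |c.re| ≤ Λ * δ := mul_le_mul_of_nonneg_left (hcr.trans hc) hΛ0.le
      _ ≤ _ := by nlinarith
  have hm : |c.im| ≤ μ := by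
    rw [← hδΛ]
    calc |c.im| ≤ δ := hci.trans hc
      _ ≤ _ := by nlinarith
  obtain ⟨y, hy⟩ : ∃ y : E, y = x + (Λ * c.re) • aR := ⟨_, rfl⟩
  have hyU : y ∈ U3 ∩ U4 := by rw [hy]; exact hst x hx.2 _ (hl.trans hm5)
  have hxA : x + A c = y + c.im • aI := by rw [hA, hy]; abel
  obtain ⟨p1, p1'⟩ := t1 x hx.1.1 _ (hl.trans hm1)
  obtain ⟨p2, p2'⟩ := t2 x hx.1.2 _ (hl.trans hm2)
  obtain ⟨p3, p3'⟩ := t3 y hyU.1 _ (hm.trans hm3)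
  obtain ⟨p4, p4'⟩ := t4 y hyU.2 _ (hm.trans hm4)
  rw [← hy] at p1 p1' p2 p2'
  rw [inner_complex, hxA]
  have hy0 : Λ * c.re = 0 → y = x := fun h => by rw [hy, h, zero_smul, add_zero]
  have hym0 : c.im = 0 → y + c.im • aI = y := fun h => by rw [h, zero_smul, add_zero]
  obtain ⟨D1, hD1⟩ : ∃ D1 : ℝ, D1 = (F t y).re - (F t x).re := ⟨_, rfl⟩
  obtain ⟨D2, hD2⟩ : ∃ D2 : ℝ, D2 = (F t y).im - (F t x).im := ⟨_, rfl⟩
  obtain ⟨D3, hD3⟩ : ∃ D3 : ℝ, D3 = (F t (y + c.im • aI)).re - (F t y).re := ⟨_, rfl⟩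
  obtain ⟨D4, hD4⟩ : ∃ D4 : ℝ, D4 = (F t (y + c.im • aI)).im - (F t y).im := ⟨_, rfl⟩
  have hre : (F t (y + c.im • aI) - F t x).re = D1 + D3 := by
    rw [Complex.sub_re, hD1, hD3]; ring
  have him : (F t (y + c.im • aI) - F t x).im = D2 + D4 := by
    rw [Complex.sub_im, hD2, hD4]; ring
  have d1 : Λ * c.re = 0 → D1 = 0 := fun h => by rw [hD1, hy0 h, sub_self]
  have d2 : Λ * c.re = 0 → D2 = 0 := fun h => by rw [hD2, hy0 h, sub_self]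
  have d3 : c.im = 0 → D3 = 0 := fun h => by rw [hD3, hym0 h, sub_self]
  have d4 : c.im = 0 → D4 = 0 := fun h => by rw [hD4, hym0 h, sub_self]
  rw [← hD1] at p1 p1'
  rw [← hD2] at p2 p2'
  rw [← hD3] at p3 p3'
  rw [← hD4] at p4 p4'
  rw [hre, him]
  clear hD1 hD2 hD3 hD4 hxA hy0 hym0 hy t1 t2 t3 t4 e1 e2 e3 e4
  have b1 : |D1| ≤ K₁' * |Λ * c.re| := abs_le_of_two hK10 d1
    ((mul_le_mul_of_nonneg_right hK1r (sq_nonneg _)).trans p1)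
    (p1'.trans (mul_le_mul_of_nonneg_right hK₁' (sq_nonneg _)))
  have b2 : |D2| ≤ σ * |Λ * c.re| := abs_le_of_two hσ d2 p2 p2'
  have b3 : |D3| ≤ q * |c.im| := abs_le_of_two hq d3 p3 p3'
  have b4 : |D4| ≤ K₂' * |c.im| := abs_le_of_two hK20 d4
    ((mul_le_mul_of_nonneg_right hK2r (sq_nonneg _)).trans p4)
    (p4'.trans (mul_le_mul_of_nonneg_right hK₂' (sq_nonneg _)))
  have hn : ‖c‖ ^ 2 = c.re ^ 2 + c.im ^ 2 := by
    rw [Complex.sq_norm, Complex.normSq_apply]; ring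
  constructor
  · rw [hn]
    exact of_det_alg hq hΛ0 hσΛ hqq hκ2 hdisc hpos p1 b2 b3 p4
  · refine (Complex.norm_le_abs_re_add_abs_im _).trans ?_
    rw [hre, him]
    have hc0 := norm_nonneg c
    have hle : |Λ * c.re| ≤ Λ * ‖c‖ := by
      rw [abs_mul, abs_of_pos hΛ0]
      exact mul_le_mul_of_nonneg_left hcr hΛ0.le
    have c1 : |D1| ≤ K₁' * (Λ * ‖c‖) := b1.trans (mul_le_mul_of_nonneg_left hle hK10)
    have c2 : |D2| ≤ σ * (Λ * ‖c‖) := b2.trans (mul_le_mul_of_nonneg_left hle hσ)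
    have c3 : |D3| ≤ q * ‖c‖ := b3.trans (mul_le_mul_of_nonneg_left hci hq)
    have c4 : |D4| ≤ K₂' * ‖c‖ := b4.trans (mul_le_mul_of_nonneg_left hci hK20)
    have g1 : |D1 + D3| ≤ |D1| + |D3| := abs_add_le _ _
    have g2 : |D2 + D4| ≤ |D2| + |D4| := abs_add_le _ _
    linarith

end Vale.Agent.P268.T.H291
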