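import Vale.Agent.P268.T.H291.Core
import Vale.Agent.P268.T.N625.Real
import Vale.Agent.P268.T.K372.SheetsV
import Vale.Agent.P268.T.S708.Osc

/-!
# P268, topological half, block B3: slopes along the two directions of the front move

Space `V × V`, `V = EuclideanSpace ℝ ι`, `x = (u, v)`.

* `dirD K₀ S u₀ v₀`: the contraction of all fat sheets `K ∈ S` active at `(u₀, v₀)`; it moves
  `v - phiV K u` by exactly `-γ (v₀ - phiV K u₀)`.
* `(-1, dv)`: the direction of the front.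
-/

set_option linter.unusedSectionVars false

namespace Vale.Agent.P268.T.H291

open Set Filter Topology
open Vale.Agent.P268.T Vale.Agent.P268.T.K372

section general

variable {E : Type*} [NormedAddCommGroup E] [NormedSpace ℝ E]
  {T : Type*} [TopologicalSpace T]
  {s : Set T} {g g₁ g₂ : T → E → ℝ} {t₀ : T} {x₀ a : E} {r q r' q' : ℝ}

/-- Slopes in the form of 625's `Grows`. -/
theorem Sl.grows (h : Sl s g t₀ x₀ a r q) (hr : 0 < r) : Grows s g t₀ x₀ a := by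
  obtain ⟨U, hU, δ, hδ, h⟩ := h.two
  by_cases ha : a = 0
  · subst ha
    refine ⟨r, hr, univ, univ_mem, ?_⟩
    filter_upwards [h] with t ht
    exfalso
    have h1 := (ht x₀ (mem_of_mem_nhds hU) δ (by rw [abs_of_pos hδ])).1
    rw [smul_zero, add_zero, sub_self, zero_mul] at h1
    have : 0 < r * δ ^ 2 := by positivity
    linarith
  · have ha0 : 0 < ‖a‖ := norm_pos_iff.mpr ha
    refine ⟨r, hr, U ∩ Metric.ball x₀ (δ * ‖a‖ / 2),
      inter_mem hU (Metric.ball_mem_nhds _ (by positivity)), ?_⟩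
    filter_upwards [h] with t ht x hx τ hτ
    have hlρ : |τ| ≤ δ := by
      have h3 : ‖τ • a‖ ≤ δ * ‖a‖ := by
        have e : τ • a = (x + τ • a - x₀) - (x - x₀) := by abel
        have h4 := hτ.2
        have h5 := hx.2
        rw [Metric.mem_ball, dist_eq_norm] at h4 h5
        rw [e]
        refine (norm_sub_le _ _).trans ?_
        linarith
      rw [norm_smul, Real.norm_eq_abs] at h3
      exact le_of_mul_le_mul_right h3 ha0
    have h6 := (ht x hx.1 τ hlρ).1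
    linarith

/-- Lipschitz functions have bounded slopes. -/
theorem Sl.of_lip {L : ℝ} (h : ∃ U ∈ 𝓝 x₀, ∀ᶠ t in 𝓝[s] t₀, ∀ x ∈ U, ∀ y ∈ U,
    |g t x - g t y| ≤ L * ‖x - y‖) : Sl s g t₀ x₀ a (-(L * ‖a‖)) (L * ‖a‖) := by
  obtain ⟨U, hU, h⟩ := h
  obtain ⟨W, hW, δ, hδ, hWU, hst⟩ := exists_step hU a
  refine ⟨W, hW, δ, hδ, ?_⟩
  filter_upwards [h] with t ht x hx l hl0 hl
  have h1 := ht _ (hst x hx l (by rwa [abs_of_nonneg hl0])) x (hWU hx)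
  rw [add_sub_cancel_left, norm_smul, Real.norm_eq_abs, abs_of_nonneg hl0] at h1
  rw [abs_le] at h1
  constructor <;> nlinarith

/-- A slope between `-K` and `K` for a function which is `K`-Lipschitz along the direction. -/
theorem Sl.of_bound {K : ℝ} (h : ∃ U ∈ 𝓝 x₀, ∃ δ > 0, ∀ᶠ t in 𝓝[s] t₀, ∀ x ∈ U, ∀ l : ℝ,
    0 ≤ l → l ≤ δ → |g t (x + l • a) - g t x| ≤ K * l) : Sl s g t₀ x₀ a (-K) K := by
  obtain ⟨U, hU, δ, hδ, h⟩ := h
  refine ⟨U, hU, δ, hδ, ?_⟩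
  filter_upwards [h] with t ht x hx l hl0 hl
  have h1 := abs_le.mp (ht x hx l hl0 hl)
  constructor <;> linarith

/-- Multiplication with a coefficient depending on the parameter. -/
theorem Sl.coeff_mul {c : T → ℝ} {C : ℝ} (h : Sl s g t₀ x₀ a r q) (hc0 : ∀ᶠ t in 𝓝[s] t₀, 0 ≤ c t)
    (hc1 : ∀ᶠ t in 𝓝[s] t₀, c t ≤ C) (hr : r ≤ 0) (hq : 0 ≤ q) :
    Sl s (fun t x => c t * g t x) t₀ x₀ a (C * r) (C * q) := by
  obtain ⟨U, hU, δ, hδ, h⟩ := h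
  refine ⟨U, hU, δ, hδ, ?_⟩
  filter_upwards [h, hc0, hc1] with t ht h0 h1 x hx l hl0 hl
  obtain ⟨a1, a2⟩ := ht x hx l hl0 hl
  have e : c t * g t (x + l • a) - c t * g t x = c t * (g t (x + l • a) - g t x) := by ring
  have b1 : c t * (r * l) ≤ c t * (g t (x + l • a) - g t x) := mul_le_mul_of_nonneg_left a1 h0
  have b2 : c t * (g t (x + l • a) - g t x) ≤ c t * (q * l) := mul_le_mul_of_nonneg_left a2 h0
  have c1 : r * l ≤ 0 := mul_nonpos_of_nonpos_of_nonneg hr hl0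
  have c2 : 0 ≤ q * l := mul_nonneg hq hl0
  have d1 : C * (r * l) ≤ c t * (r * l) := mul_le_mul_of_nonpos_right h1 c1
  have d2 : c t * (q * l) ≤ C * (q * l) := mul_le_mul_of_nonneg_right h1 c2
  rw [e]
  constructor <;> linarith

/-- One step of a contraction towards zero in a normed space. -/
theorem norm_step {W : Type*} [NormedAddCommGroup W] [NormedSpace ℝ W] (w w₀ : W) {l : ℝ}
    (h0 : 0 ≤ l) (h1 : l ≤ 1) :
    ‖w‖ - l * ‖w₀‖ ≤ ‖w - l • w₀‖ ∧ ‖w - l • w₀‖ ≤ ‖w‖ + l * (-‖w₀‖ + 2 * ‖w - w₀‖) := by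
  constructor
  · have h2 := norm_sub_norm_le w (l • w₀)
    rw [norm_smul, Real.norm_eq_abs, abs_of_nonneg h0] at h2
    exact h2
  · have e : w - l • w₀ = (1 - l) • w + l • (w - w₀) := by
      rw [sub_smul, one_smul, smul_sub]; abel
    rw [e]
    have h2 := norm_add_le ((1 - l) • w) (l • (w - w₀))
    rw [norm_smul, norm_smul, Real.norm_eq_abs, Real.norm_eq_abs, abs_of_nonneg h0,
      abs_of_nonneg (by linarith : (0 : ℝ) ≤ 1 - l)] at h2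
    have h3 : ‖w₀‖ ≤ ‖w‖ + ‖w - w₀‖ := by
      have := norm_sub_le w (w - w₀)
      rwa [sub_sub_cancel] at this
    have h4 := mul_le_mul_of_nonneg_left h3 h0
    linarith

end general

variable {ι : Type} [Fintype ι] {T : Type*} [TopologicalSpace T]
  {s : Set T} {t₀ : T}

/-! ### Norms -/

theorem Sl.norm_fst {x₀ a : EuclideanSpace ℝ ι × EuclideanSpace ℝ ι} :
    Sl s (fun _ x : _ => ‖x.1‖) t₀ x₀ a (-‖a.1‖) ‖a.1‖ := by
  refine Sl.of_bound ⟨univ, univ_mem, 1, one_pos, Eventually.of_forall fun t x _ l hl0 _ => ?_⟩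
  have h1 := abs_norm_sub_norm_le (x + l • a).1 x.1
  refine h1.trans (le_of_eq ?_)
  rw [Prod.fst_add, Prod.smul_fst, add_sub_cancel_left, norm_smul, Real.norm_eq_abs,
    abs_of_nonneg hl0, mul_comm]

/-! ### The contraction direction -/

/-- The small planes in which two members of `S` differ. -/
def dirJ (K₀ : ι → ℕ) (S : Set (ι → ℕ)) (u₀ : EuclideanSpace ℝ ι) (j : ι) : Prop :=
  0 < u₀ j ∧ ∃ K ∈ S, K j ≠ K₀ j

open Classical in
/-- The contraction direction. -/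
noncomputable def dirD (K₀ : ι → ℕ) (S : Set (ι → ℕ)) (u₀ v₀ : EuclideanSpace ℝ ι) : EuclideanSpace ℝ ι × EuclideanSpace ℝ ι :=
  (WithLp.toLp 2 fun j => if dirJ K₀ S u₀ j then -u₀ j else 0,
    WithLp.toLp 2 fun j => if dirJ K₀ S u₀ j then -v₀ j else -(v₀ j - K₀ j * max (u₀ j) 0))

variable {K₀ : ι → ℕ} {S : Set (ι → ℕ)} {u₀ v₀ : EuclideanSpace ℝ ι}

theorem dirD_fst_of {j : ι} (h : dirJ K₀ S u₀ j) : (dirD K₀ S u₀ v₀).1 j = -u₀ j := by
  simp [dirD, h]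

theorem dirD_fst_of_not {j : ι} (h : ¬ dirJ K₀ S u₀ j) : (dirD K₀ S u₀ v₀).1 j = 0 := by
  simp [dirD, h]

theorem dirD_snd_of {j : ι} (h : dirJ K₀ S u₀ j) : (dirD K₀ S u₀ v₀).2 j = -v₀ j := by
  simp [dirD, h]

theorem dirD_snd_of_not {j : ι} (h : ¬ dirJ K₀ S u₀ j) :
    (dirD K₀ S u₀ v₀).2 j = -(v₀ j - K₀ j * max (u₀ j) 0) := by
  simp [dirD, h]

/-- The neighbourhood of `u₀` used for the contraction. -/
def dirU (u₀ : EuclideanSpace ℝ ι) : Set (EuclideanSpace ℝ ι) := {u | ∀ j, 0 < u₀ j → u₀ j / 2 < u j}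

theorem dirU_mem (u₀ : EuclideanSpace ℝ ι) : dirU u₀ ∈ 𝓝 u₀ := by
  have h : ∀ j : ι, ∀ᶠ u in 𝓝 u₀, 0 < u₀ j → u₀ j / 2 < u j := by
    intro j
    by_cases hj : 0 < u₀ j
    · have h1 : Continuous fun u : (EuclideanSpace ℝ ι) => u j := by fun_prop
      have h2 := h1.continuousAt.eventually (lt_mem_nhds (show u₀ j / 2 < u₀ j by linarith))
      exact h2.mono fun u hu _ => hu
    · exact Eventually.of_forall fun u h => absurd h hj
  exact (eventually_all.mpr h)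

/-- **Exact contraction.** -/
theorem dirD_step {u : EuclideanSpace ℝ ι} (hu : u ∈ dirU u₀) (v : EuclideanSpace ℝ ι) {K : ι → ℕ} (hK : K ∈ S) {γ : ℝ}
    (hγ : |γ| ≤ 1 / 4) :
    (v + γ • (dirD K₀ S u₀ v₀).2) - phiV K (u + γ • (dirD K₀ S u₀ v₀).1) =
      (v - phiV K u) - γ • (v₀ - phiV K u₀) := by
  ext j
  have e1 : ((v + γ • (dirD K₀ S u₀ v₀).2) - phiV K (u + γ • (dirD K₀ S u₀ v₀).1)) j =
      (v j + γ * (dirD K₀ S u₀ v₀).2 j) - K j * max (u j + γ * (dirD K₀ S u₀ v₀).1 j) 0 := rfl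
  have e2 : ((v - phiV K u) - γ • (v₀ - phiV K u₀)) j =
      (v j - K j * max (u j) 0) - γ * (v₀ j - K j * max (u₀ j) 0) := rfl
  rw [e1, e2]
  by_cases hj : dirJ K₀ S u₀ j
  · have hu0 : 0 < u₀ j := hj.1
    have h1 := hu j hu0
    have h2 := abs_le.mp hγ
    rw [dirD_fst_of hj, dirD_snd_of hj, max_eq_left (by linarith : (0 : ℝ) ≤ u j),
      max_eq_left hu0.le, max_eq_left (by nlinarith : (0 : ℝ) ≤ u j + γ * -u₀ j)]
    ring
  · rw [dirD_fst_of_not hj, dirD_snd_of_not hj, mul_zero, add_zero]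
    by_cases hu0 : 0 < u₀ j
    · have hKj : K j = K₀ j := by
        by_contra hne
        exact hj ⟨hu0, K, hK, hne⟩
      rw [hKj]; ring
    · rw [max_eq_right (not_lt.mp hu0)]; ring

/-- Slope of the distance to a fat sheet along the contraction. -/
theorem Sl.dist_phi {K : ι → ℕ} (hK : K ∈ S) {e : ℝ} (he : 0 < e) :
    Sl s (fun _ x : _ => ‖x.2 - phiV K x.1‖) t₀ (u₀, v₀) (dirD K₀ S u₀ v₀)
      (-‖v₀ - phiV K u₀‖ - e) (-‖v₀ - phiV K u₀‖ + e) := by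
  have hc : Continuous fun x : EuclideanSpace ℝ ι × EuclideanSpace ℝ ι => ‖(x.2 - phiV K x.1) - (v₀ - phiV K u₀)‖ := by
    have h1 : Continuous fun x : EuclideanSpace ℝ ι × EuclideanSpace ℝ ι => phiV K x.1 := by
      unfold phiV
      fun_prop
    fun_prop
  have h1 : ∀ᶠ x in 𝓝 ((u₀, v₀) : EuclideanSpace ℝ ι × EuclideanSpace ℝ ι), ‖(x.2 - phiV K x.1) - (v₀ - phiV K u₀)‖ < e / 2 := by
    have := hc.continuousAt (x := ((u₀, v₀) : EuclideanSpace ℝ ι × EuclideanSpace ℝ ι))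
    refine this.eventually (gt_mem_nhds ?_)
    beta_reduce
    rw [sub_self, norm_zero]; linarith
  have h2 : ∀ᶠ x in 𝓝 ((u₀, v₀) : EuclideanSpace ℝ ι × EuclideanSpace ℝ ι), x.1 ∈ dirU u₀ :=
    (continuous_fst (X := (EuclideanSpace ℝ ι)) (Y := (EuclideanSpace ℝ ι))).continuousAt.eventually (dirU_mem u₀)
  refine ⟨{x | ‖(x.2 - phiV K x.1) - (v₀ - phiV K u₀)‖ < e / 2 ∧ x.1 ∈ dirU u₀}, h1.and h2,
    1 / 4, by norm_num, Eventually.of_forall fun t x hx l hl0 hl => ?_⟩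
  have e1 : (x + l • dirD K₀ S u₀ v₀).2 - phiV K (x + l • dirD K₀ S u₀ v₀).1 =
      (x.2 - phiV K x.1) - l • (v₀ - phiV K u₀) :=
    dirD_step hx.2 x.2 hK (by rwa [abs_of_nonneg hl0])
  simp only [e1]
  obtain ⟨a1, a2⟩ := norm_step (x.2 - phiV K x.1) (v₀ - phiV K u₀) hl0 (by linarith)
  have h3 := hx.1.le
  have h4 := mul_le_mul_of_nonneg_left h3 hl0
  constructor
  · nlinarith
  · nlinarith

/-- The small planes are small. -/
theorem dirJ_le {m : ℝ} {K₀ : ι → ℕ} (hK₀ : K₀ ∈ S) (hS : ∀ K ∈ S, ‖v₀ - phiV K u₀‖ ≤ m) {j : ι}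
    (hj : dirJ K₀ S u₀ j) : u₀ j ≤ 2 * m := by
  obtain ⟨hu, K, hK, hne⟩ := hj
  have h1 := (K372.abs_apply_le (v₀ - phiV K u₀) j).trans (hS K hK)
  have h2 := (K372.abs_apply_le (v₀ - phiV K₀ u₀) j).trans (hS K₀ hK₀)
  have e1 : (v₀ - phiV K u₀) j = v₀ j - K j * max (u₀ j) 0 := rfl
  have e2 : (v₀ - phiV K₀ u₀) j = v₀ j - K₀ j * max (u₀ j) 0 := rfl
  rw [e1, max_eq_left hu.le] at h1
  rw [e2, max_eq_left hu.le] at h2
  rw [abs_le] at h1 h2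
  rcases lt_or_gt_of_ne hne with h | h
  · have h3 : (K j : ℝ) + 1 ≤ K₀ j := by exact_mod_cast h
    nlinarith
  · have h3 : (K₀ j : ℝ) + 1 ≤ K j := by exact_mod_cast h
    nlinarith

theorem norm_dirD_fst_le {m : ℝ} (hm : 0 ≤ m) (hJ : ∀ j, dirJ K₀ S u₀ j → u₀ j ≤ m) :
    ‖(dirD K₀ S u₀ v₀).1‖ ≤ Real.sqrt (Fintype.card ι) * m := by
  refine norm_le_of_abs_le hm fun j => ?_
  by_cases hj : dirJ K₀ S u₀ j
  · rw [dirD_fst_of hj, abs_neg, abs_of_pos hj.1]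
    exact hJ j hj
  · rw [dirD_fst_of_not hj, abs_zero]; exact hm

theorem dirD_fst_nonpos (j : ι) : (dirD K₀ S u₀ v₀).1 j ≤ 0 := by
  by_cases hj : dirJ K₀ S u₀ j
  · rw [dirD_fst_of hj]; linarith [hj.1]
  · rw [dirD_fst_of_not hj]

theorem le_dirD_fst {m : ℝ} (hm : 0 ≤ m) (hJ : ∀ j, dirJ K₀ S u₀ j → u₀ j ≤ m) (j : ι) :
    -m ≤ (dirD K₀ S u₀ v₀).1 j := by
  by_cases hj : dirJ K₀ S u₀ j
  · rw [dirD_fst_of hj]; linarith [hJ j hj]
  · rw [dirD_fst_of_not hj]; linarith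

/-- The fat sheet along the contraction. -/
theorem Sl.fat {ε : ℝ} (hε : 0 ≤ ε) {K : ι → ℕ} (hK : K ∈ S) {e : ℝ} (he : 0 < e) :
    Sl s (fun _ x : _ => ε * ‖x.1‖ - ‖x.2 - phiV K x.1‖ / 2) t₀ (u₀, v₀) (dirD K₀ S u₀ v₀)
      (‖v₀ - phiV K u₀‖ / 2 - ε * ‖(dirD K₀ S u₀ v₀).1‖ - e)
      (‖v₀ - phiV K u₀‖ / 2 + ε * ‖(dirD K₀ S u₀ v₀).1‖ + e) := by
  have h1 := (Sl.norm_fst (s := s) (t₀ := t₀) (x₀ := (u₀, v₀)) (a := dirD K₀ S u₀ v₀)).const_mul hε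
  have h2 := (Sl.dist_phi (s := s) (t₀ := t₀) (K₀ := K₀) (u₀ := u₀) (v₀ := v₀) hK
    (e := e) he).const_mul (show (0 : ℝ) ≤ 1 / 2 by norm_num)
  have h3 := (h1.sub h2).mono (r' := ‖v₀ - phiV K u₀‖ / 2 - ε * ‖(dirD K₀ S u₀ v₀).1‖ - e)
    (q' := ‖v₀ - phiV K u₀‖ / 2 + ε * ‖(dirD K₀ S u₀ v₀).1‖ + e) (by linarith) (by linarith)
  refine h3.congr ⟨univ, univ_mem, Eventually.of_forall fun t x _ => ?_⟩
  ring

/-- **D-lemma.** One direction along which all active fat sheets grow. -/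
theorem exists_dir_fat {σ : Type*} (K : σ → ι → ℕ) {ε : ℝ} (hε : 0 < ε)
    (hε' : 4 * ε * Real.sqrt (Fintype.card ι) < 1) (u₀ v₀ : EuclideanSpace ℝ ι) (hu : u₀ ≠ 0) :
    ∃ a : EuclideanSpace ℝ ι × EuclideanSpace ℝ ι,
      ∀ i, ‖v₀ - phiV (K i) u₀‖ = 2 * ε * ‖u₀‖ →
        Grows s (fun _ x : _ => ε * ‖x.1‖ - ‖x.2 - phiV (K i) x.1‖ / 2) t₀ (u₀, v₀) a := by
  have hu0 : 0 < ‖u₀‖ := norm_pos_iff.mpr hu
  by_cases h : ∃ i₀, ‖v₀ - phiV (K i₀) u₀‖ = 2 * ε * ‖u₀‖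
  · obtain ⟨i₀, hi₀⟩ := h
    set S : Set (ι → ℕ) := {L | ‖v₀ - phiV L u₀‖ ≤ 2 * ε * ‖u₀‖} with hS
    have hJ : ∀ j, dirJ (K i₀) S u₀ j → u₀ j ≤ 2 * (2 * ε * ‖u₀‖) := fun j hj =>
      dirJ_le (v₀ := v₀) (m := 2 * ε * ‖u₀‖) (S := S) hi₀.le (fun K hK => hK) hj
    have hD := norm_dirD_fst_le (v₀ := v₀) (by positivity) hJ
    refine ⟨dirD (K i₀) S u₀ v₀, fun i hi => ?_⟩
    have hd : 0 < 1 - 4 * ε * Real.sqrt (Fintype.card ι) := by linarith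
    have hbase := Sl.fat (s := s) (t₀ := t₀) (K₀ := K i₀) (S := S) (u₀ := u₀) (v₀ := v₀) hε.le
      (K := K i) (by rw [hS, Set.mem_ofPred_eq, hi])
      (e := ε * ‖u₀‖ * (1 - 4 * ε * Real.sqrt (Fintype.card ι)) / 2) (by positivity)
    refine hbase.grows ?_
    rw [hi]
    have h1 := mul_le_mul_of_nonneg_left hD hε.le
    have h2 : 0 < ε * ‖u₀‖ * (1 - 4 * ε * Real.sqrt (Fintype.card ι)) := by positivity
    nlinarith
  · exact ⟨0, fun i hi => absurd ⟨i, hi⟩ h⟩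

section maxmin

variable [Nonempty ι]

theorem Sl.mx_dirD {m : ℝ} (hm : 0 ≤ m) (hJ : ∀ j, dirJ K₀ S u₀ j → u₀ j ≤ m) :
    Sl s (fun _ x : _ => mxV x.1) t₀ (u₀, v₀) (dirD K₀ S u₀ v₀) (-m) 0 := by
  refine ⟨univ, univ_mem, 1, one_pos, Eventually.of_forall fun t x _ l hl0 _ => ?_⟩
  have key : ∀ j, (x + l • dirD K₀ S u₀ v₀).1 j = x.1 j + l * (dirD K₀ S u₀ v₀).1 j := fun j => rfl
  constructor
  · obtain ⟨j, hj⟩ := exists_mxV x.1
    have h1 := le_mxV (x + l • dirD K₀ S u₀ v₀).1 j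
    rw [key] at h1
    have h2 := mul_le_mul_of_nonneg_left (le_dirD_fst (v₀ := v₀) hm hJ j) hl0
    beta_reduce
    rw [hj]
    linarith
  · have h1 : mxV (x + l • dirD K₀ S u₀ v₀).1 ≤ mxV x.1 := mxV_le fun j => by
      rw [key]
      have h2 := mul_nonneg hl0 (neg_nonneg.mpr (dirD_fst_nonpos (K₀ := K₀) (S := S) (u₀ := u₀)
        (v₀ := v₀) j))
      linarith [le_mxV x.1 j]
    linarith

theorem Sl.mn_dirD {m : ℝ} (hm : 0 ≤ m) (hJ : ∀ j, dirJ K₀ S u₀ j → u₀ j ≤ m) :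
    Sl s (fun _ x : _ => mnV x.1) t₀ (u₀, v₀) (dirD K₀ S u₀ v₀) (-m) 0 := by
  refine ⟨univ, univ_mem, 1, one_pos, Eventually.of_forall fun t x _ l hl0 _ => ?_⟩
  have key : ∀ j, (x + l • dirD K₀ S u₀ v₀).1 j = x.1 j + l * (dirD K₀ S u₀ v₀).1 j := fun j => rfl
  constructor
  · have h1 : mnV x.1 - l * m ≤ mnV (x + l • dirD K₀ S u₀ v₀).1 := le_mnV fun j => by
      rw [key]
      have h2 := mul_le_mul_of_nonneg_left (le_dirD_fst (v₀ := v₀) hm hJ j) hl0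
      linarith [mnV_le x.1 j]
    linarith
  · obtain ⟨j, hj⟩ := exists_mnV x.1
    have h1 := mnV_le (x + l • dirD K₀ S u₀ v₀).1 j
    rw [key] at h1
    have h2 := mul_nonneg hl0 (neg_nonneg.mpr (dirD_fst_nonpos (K₀ := K₀) (S := S) (u₀ := u₀)
      (v₀ := v₀) j))
    beta_reduce
    rw [hj]
    linarith

/-- If the small planes are strictly below the maximum, the maximum does not move. -/
theorem Sl.mx_dirD_eq {m : ℝ} (hJ : ∀ j, dirJ K₀ S u₀ j → u₀ j ≤ m) (hlt : m < mxV u₀) :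
    Sl s (fun _ x : _ => mxV x.1) t₀ (u₀, v₀) (dirD K₀ S u₀ v₀) 0 0 := by
  have hc : Continuous fun x : EuclideanSpace ℝ ι × EuclideanSpace ℝ ι => ‖x.1 - u₀‖ := by fun_prop
  have h1 : ∀ᶠ x in 𝓝 ((u₀, v₀) : EuclideanSpace ℝ ι × EuclideanSpace ℝ ι), ‖x.1 - u₀‖ < (mxV u₀ - m) / 2 := by
    have := hc.continuousAt (x := ((u₀, v₀) : EuclideanSpace ℝ ι × EuclideanSpace ℝ ι))
    refine this.eventually (gt_mem_nhds ?_)
    simp only [sub_self, norm_zero]; linarith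
  refine ⟨{x | ‖x.1 - u₀‖ < (mxV u₀ - m) / 2}, h1, 1, one_pos,
    Eventually.of_forall fun t x hx l hl0 _ => ?_⟩
  have key : ∀ j, (x + l • dirD K₀ S u₀ v₀).1 j = x.1 j + l * (dirD K₀ S u₀ v₀).1 j := fun j => rfl
  have hx' : ‖x.1 - u₀‖ < (mxV u₀ - m) / 2 := hx
  have h2 : mxV (x + l • dirD K₀ S u₀ v₀).1 = mxV x.1 := by
    refine le_antisymm (mxV_le fun j => ?_) ?_
    · rw [key]
      have h2 := mul_nonneg hl0 (neg_nonneg.mpr (dirD_fst_nonpos (K₀ := K₀) (S := S) (u₀ := u₀)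
        (v₀ := v₀) j))
      linarith [le_mxV x.1 j]
    · obtain ⟨j, hj⟩ := exists_mxV x.1
      have hjJ : ¬ dirJ K₀ S u₀ j := by
        intro hjJ
        have h3 := hJ j hjJ
        have h4 := abs_mxV_sub_le x.1 u₀
        have h5 := K372.abs_apply_le (x.1 - u₀) j
        have e : (x.1 - u₀) j = x.1 j - u₀ j := rfl
        rw [e] at h5
        rw [abs_le] at h4 h5
        linarith
      have h3 := le_mxV (x + l • dirD K₀ S u₀ v₀).1 j
      rw [key, dirD_fst_of_not hjJ, mul_zero, add_zero, ← hj] at h3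
      exact h3
  beta_reduce
  rw [h2]
  simp

end maxmin

end Vale.Agent.P268.T.H291
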