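import Vale.Agent.P268.T.H291.Dirs

/-!
# P268, topological half, block B3: slopes of the front function

`frV M s 0 u = M (s osc u - max u)` along `(-1, dv)` (exactly `M`) and along the contraction `dirD`
(at least `-e` for every `e > 0`, wherever the front function is not large).
-/

set_option linter.unusedSectionVars false

namespace Vale.Agent.P268.T.H291

open Set Filter Topology
open Vale.Agent.P268.T Vale.Agent.P268.T.K372

variable {ι : Type} [Fintype ι] [Nonempty ι] {T : Type*} [TopologicalSpace T]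
  {s : Set T} {t₀ : T} {K₀ : ι → ℕ} {S : Set (ι → ℕ)} {u₀ v₀ : EuclideanSpace ℝ ι}

/-- The front function grows at the rate `M` along `(-1, dv)`. -/
theorem sl_fr_one (M : ℝ) (c : T → ℝ) (dv : EuclideanSpace ℝ ι) {x₀ : EuclideanSpace ℝ ι ×
    EuclideanSpace ℝ ι} :
    Sl s (fun t x => frV M (c t) 0 x.1) t₀ x₀ (-oneV ι, dv) M M := by
  refine ⟨univ, univ_mem, 1, one_pos, Eventually.of_forall fun t x _ l _ _ => ?_⟩
  have e : (x + l • ((-oneV ι, dv) : EuclideanSpace ℝ ι × EuclideanSpace ℝ ι)).1 =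
      x.1 - l • oneV ι := by
    show x.1 + l • (-oneV ι) = _
    rw [smul_neg, sub_eq_add_neg]
  beta_reduce
  rw [e, frV_sub_one]
  constructor <;> linarith

/-- In terms of maximum and minimum. -/
theorem frV_eq (M c : ℝ) (u : EuclideanSpace ℝ ι) :
    frV M c 0 u = M * ((c - 1) * mxV u - c * mnV u) := by
  unfold frV oscV; ring

/-- Where the front function is not large and `c ≥ 1` the maximum is not small. -/
theorem lt_mxV_of_frV_le {M c ε m : ℝ} (hM : 0 < M) (hc : 1 ≤ c) {u : EuclideanSpace ℝ ι}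
    (hu : u ≠ 0) (h : frV M c 0 u ≤ ε * ‖u‖)
    (hm : Real.sqrt (Fintype.card ι) * m < ‖u‖)
    (hε : Real.sqrt (Fintype.card ι) * ε < M) : m < mxV u := by
  have hu0 : 0 < ‖u‖ := norm_pos_iff.mpr hu
  set N : ℝ := Real.sqrt (Fintype.card ι) with hN
  have hN1 : 1 ≤ N := by
    rw [hN, Real.one_le_sqrt]
    exact_mod_cast Fintype.card_pos
  by_contra hcon
  push Not at hcon
  -- some coordinate is very negative
  have h1 : N * mnV u ≤ -‖u‖ := by
    by_contra h2
    push Not at h2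
    obtain ⟨C, hC0, hC1, hC2⟩ : ∃ C : ℝ, 0 ≤ C ∧ N * C < ‖u‖ ∧ ∀ j, |u j| ≤ C := by
      refine ⟨max (max (mxV u) (-mnV u)) 0, le_max_right _ _, ?_, fun j => ?_⟩
      · rw [mul_max_of_nonneg _ _ (by linarith), mul_max_of_nonneg _ _ (by linarith), mul_zero]
        refine max_lt (max_lt ?_ ?_) hu0
        · exact (mul_le_mul_of_nonneg_left hcon (by linarith)).trans_lt hm
        · linarith
      · refine le_trans ?_ (le_max_left _ _)
        rw [abs_le]
        constructor
        · have := mnV_le u j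
          have h3 := le_max_right (mxV u) (-mnV u)
          linarith
        · exact (le_mxV u j).trans (le_max_left _ _)
    have h3 := K372.norm_le_of_abs_le hC0 hC2
    rw [← hN] at h3
    linarith
  -- then the front function is large
  have h2 := mnV_le_mxV u
  have h3 : -mnV u ≤ (c - 1) * mxV u - c * mnV u := by
    have := mul_le_mul_of_nonneg_left h2 (sub_nonneg.mpr hc)
    linarith
  have h4 : M * (-mnV u) ≤ frV M c 0 u := by
    rw [frV_eq]; exact mul_le_mul_of_nonneg_left h3 hM.le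
  have h5 : M * ‖u‖ ≤ N * (M * (-mnV u)) := by
    have := mul_le_mul_of_nonneg_left h1 hM.le
    linarith
  have h6 : N * (M * (-mnV u)) ≤ N * (ε * ‖u‖) :=
    mul_le_mul_of_nonneg_left (h4.trans h) (by linarith)
  have h7 : M * ‖u‖ ≤ (N * ε) * ‖u‖ := by linarith
  have h8 := le_of_mul_le_mul_right h7 hu0
  linarith

/-- The front function does not decrease along the contraction. -/
theorem sl_fr_dirD {M m : ℝ} (hM : 0 < M) {c : T → ℝ} (hc : ContinuousWithinAt c s t₀)
    (hc0 : ∀ᶠ t in 𝓝[s] t₀, 0 ≤ c t) (hm : 0 ≤ m) (hJ : ∀ j, dirJ K₀ S u₀ j → u₀ j ≤ m)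
    (hk : 1 < c t₀ → m < mxV u₀) {e : ℝ} (he : 0 < e) :
    Sl s (fun t x => frV M (c t) 0 x.1) t₀ (u₀, v₀) (dirD K₀ S u₀ v₀) (-e)
      (M * ((|c t₀| + 2) * m) + e) := by
  obtain ⟨U1, hU1, δ1, hδ1, h1⟩ := Sl.mx_dirD (s := s) (t₀ := t₀) (K₀ := K₀) (v₀ := v₀) hm hJ
  obtain ⟨U2, hU2, δ2, hδ2, h2⟩ := Sl.mn_dirD (s := s) (t₀ := t₀) (K₀ := K₀) (v₀ := v₀) hm hJ
  -- the coefficient
  have hη : 0 < min 1 (e / (M * (m + 1))) := by positivity
  have hc1 : ∀ᶠ t in 𝓝[s] t₀, |c t - c t₀| < min 1 (e / (M * (m + 1))) := by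
    have := Metric.continuousWithinAt_iff'.mp hc _ hη
    exact this.mono fun t ht => by rwa [Real.dist_eq] at ht
  have hMm : ∀ a : ℝ, a ≤ min 1 (e / (M * (m + 1))) → 0 ≤ a → M * (a * m) ≤ e := by
    intro a ha ha0
    have h3 : a * (M * (m + 1)) ≤ e := by
      rw [← le_div_iff₀ (by positivity)]
      exact ha.trans (min_le_right _ _)
    have h4 : 0 ≤ a * M := by positivity
    nlinarith
  by_cases hgt : 1 < c t₀
  · obtain ⟨U3, hU3, δ3, hδ3, h3⟩ := Sl.mx_dirD_eq (s := s) (t₀ := t₀) (K₀ := K₀) (v₀ := v₀) hJ (hk hgt)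
    refine ⟨U1 ∩ (U2 ∩ U3), inter_mem hU1 (inter_mem hU2 hU3), min δ1 (min δ2 δ3),
      lt_min hδ1 (lt_min hδ2 hδ3), ?_⟩
    filter_upwards [h1, h2, h3, hc0, hc1] with t a1 a2 a3 hct0 hct1 x hx l hl0 hl
    obtain ⟨b2, b2'⟩ := a2 x hx.2.1 l hl0 (hl.trans ((min_le_right _ _).trans (min_le_left _ _)))
    obtain ⟨b3, b3'⟩ := a3 x hx.2.2 l hl0 (hl.trans ((min_le_right _ _).trans (min_le_right _ _)))
    rw [frV_eq, frV_eq]
    obtain ⟨X, hX⟩ : ∃ X, X = mxV (x + l • dirD K₀ S u₀ v₀).1 - mxV x.1 := ⟨_, rfl⟩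
    obtain ⟨Y, hY⟩ : ∃ Y, Y = mnV (x + l • dirD K₀ S u₀ v₀).1 - mnV x.1 := ⟨_, rfl⟩
    rw [← hY] at b2 b2'
    rw [← hX] at b3 b3'
    have hX0 : X = 0 := by linarith
    have e1 : M * ((c t - 1) * mxV (x + l • dirD K₀ S u₀ v₀).1 -
        c t * mnV (x + l • dirD K₀ S u₀ v₀).1) - M * ((c t - 1) * mxV x.1 - c t * mnV x.1) =
        M * ((c t - 1) * X + c t * (-Y)) := by rw [hX, hY]; ring
    rw [e1, hX0, mul_zero, zero_add]
    have hYn : 0 ≤ -Y := by linarith
    have hYm : -Y ≤ m * l := by linarith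
    constructor
    · have h5 : 0 ≤ M * (c t * -Y) := by positivity
      have h6 : 0 ≤ e * l := by positivity
      linarith
    · have h5 : c t ≤ |c t₀| + 2 := by
        have := (abs_lt.mp (hct1.trans_le (min_le_left _ _))).2
        linarith [le_abs_self (c t₀)]
      have h6 : c t * -Y ≤ (|c t₀| + 2) * (m * l) := mul_le_mul h5 hYm hYn (by positivity)
      have h7 := mul_le_mul_of_nonneg_left h6 hM.le
      have h8 : 0 ≤ e * l := by positivity
      nlinarith
  · push Not at hgt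
    refine ⟨U1 ∩ U2, inter_mem hU1 hU2, min δ1 δ2, lt_min hδ1 hδ2, ?_⟩
    filter_upwards [h1, h2, hc0, hc1] with t a1 a2 hct0 hct1 x hx l hl0 hl
    obtain ⟨b1, b1'⟩ := a1 x hx.1 l hl0 (hl.trans (min_le_left _ _))
    obtain ⟨b2, b2'⟩ := a2 x hx.2 l hl0 (hl.trans (min_le_right _ _))
    rw [frV_eq, frV_eq]
    obtain ⟨X, hX⟩ : ∃ X, X = mxV (x + l • dirD K₀ S u₀ v₀).1 - mxV x.1 := ⟨_, rfl⟩
    obtain ⟨Y, hY⟩ : ∃ Y, Y = mnV (x + l • dirD K₀ S u₀ v₀).1 - mnV x.1 := ⟨_, rfl⟩
    rw [← hX] at b1 b1'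
    rw [← hY] at b2 b2'
    have e1 : M * ((c t - 1) * mxV (x + l • dirD K₀ S u₀ v₀).1 -
        c t * mnV (x + l • dirD K₀ S u₀ v₀).1) - M * ((c t - 1) * mxV x.1 - c t * mnV x.1) =
        M * ((1 - c t) * (-X)) + M * (c t * (-Y)) := by rw [hX, hY]; ring
    rw [e1]
    have hXn : 0 ≤ -X := by linarith
    have hXm : -X ≤ m * l := by linarith
    have hYn : 0 ≤ -Y := by linarith
    have hYm : -Y ≤ m * l := by linarith
    have habs := abs_lt.mp hct1
    have hY0 : 0 ≤ M * (c t * -Y) := by positivity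
    constructor
    · -- lower bound
      have h5 : -(e * l) ≤ M * ((1 - c t) * -X) := by
        rcases le_total (c t) 1 with h | h
        · have : 0 ≤ M * ((1 - c t) * -X) := mul_nonneg hM.le (mul_nonneg (by linarith) hXn)
          have h6 : 0 ≤ e * l := by positivity
          linarith
        · have h6 : c t - 1 ≤ min 1 (e / (M * (m + 1))) := by linarith
          have h7 := hMm (c t - 1) h6 (by linarith)
          have h8 : (c t - 1) * -X ≤ (c t - 1) * (m * l) := mul_le_mul_of_nonneg_left hXm (by linarith)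
          have h9 := mul_le_mul_of_nonneg_left h8 hM.le
          have h10 := mul_le_mul_of_nonneg_right h7 hl0
          nlinarith
      linarith
    · have h5 : c t ≤ |c t₀| + 1 := by
        have := habs.2
        have h6 := min_le_left 1 (e / (M * (m + 1)))
        linarith [le_abs_self (c t₀)]
      have h6 : c t * -Y ≤ (|c t₀| + 1) * (m * l) := mul_le_mul h5 hYm hYn (by positivity)
      have h7 : (1 - c t) * -X ≤ 1 * (m * l) := mul_le_mul (by linarith) hXm hXn zero_le_one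
      have h8 := mul_le_mul_of_nonneg_left h6 hM.le
      have h9 := mul_le_mul_of_nonneg_left h7 hM.le
      have h10 : 0 ≤ e * l := by positivity
      nlinarith

end Vale.Agent.P268.T.H291
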