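import Vale.Agent.P268.T.H291.Core
import Vale.Agent.P268.T.PlatesA

/-!
# P268, topological half: regularity from two directions at points with nonnegative real part

`RegAt.of_fields`: let `F` be a homogeneous, locally Lipschitz family and `0 ≤ (F t₀ x₀).re`.
If along `aR` the real part grows and the imaginary part has slope `-(F t₀ x₀).im`
(exponential contraction), and along `aI` the imaginary part grows, then `F` is regular at `x₀`.
-/

set_option linter.unusedSectionVars false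

namespace Vale.Agent.P268.T.H291

open Set Filter Topology
open Vale.Agent.P268.T

variable {E : Type*} [NormedAddCommGroup E] [NormedSpace ℝ E]
  {T : Type*} [TopologicalSpace T]

variable {s : Set T} {g g₁ g₂ : T → E → ℝ} {t₀ : T} {x₀ a : E} {r q r' q' : ℝ}

theorem inner_I_mul (D v : ℂ) : inner ℝ D (Complex.I * v) = -v.im * D.re + v.re * D.im := by
  rw [Complex.inner]
  simp [Complex.mul_re, Complex.mul_im]

/-- Angular case: real part grows along `aR`, imaginary part `B ≠ 0` there. -/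
theorem RegAt.of_im_ne {F : T → E → ℂ}
    (cont : ContinuousOn (fun p : T × E => F p.1 p.2) (s ×ˢ univ))
    (hom : ∀ t ∈ s, Hom1 (F t)) (ht₀ : t₀ ∈ s) (hL : LocLip s F t₀ x₀)
    (h0 : 0 ≤ (F t₀ x₀).re) (hB : (F t₀ x₀).im ≠ 0) {aR : E} (hr : 0 < r)
    (h1 : Sl s (fun t x => (F t x).re) t₀ x₀ aR r q)
    (h2 : ∀ σ > 0, Sl s (fun t x => (F t x).im) t₀ x₀ aR
      (-(F t₀ x₀).im - σ) (-(F t₀ x₀).im + σ)) : RegAt s F t₀ x₀ := by
  have hne : F t₀ x₀ ≠ 0 := by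
    intro h
    rw [h] at hB
    exact hB rfl
  obtain ⟨A, hA⟩ : ∃ A : ℝ, A = (F t₀ x₀).re := ⟨_, rfl⟩
  obtain ⟨B, hBd⟩ : ∃ B : ℝ, B = (F t₀ x₀).im := ⟨_, rfl⟩
  rw [← hA] at h0
  rw [← hBd] at hB h2
  have hB0 : 0 < |B| := abs_pos.mpr hB
  obtain ⟨L, U0, hU0, e0⟩ := hL
  obtain ⟨U1, hU1, δ1, hδ1, e1⟩ := h1.two
  obtain ⟨σ, hσ0, hσ⟩ : ∃ σ : ℝ, 0 < σ ∧ A * σ ≤ |B| * r / 2 := by
    refine ⟨|B| * r / (2 * (A + 1)), by positivity, ?_⟩
    rw [mul_div_assoc', div_le_div_iff₀ (by positivity) (by norm_num)]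
    nlinarith [mul_pos hB0 hr]
  obtain ⟨U2, hU2, δ2, hδ2, e2⟩ := (h2 σ hσ0).two
  have ha : 0 < ‖aR‖ + 1 := by positivity
  -- a neighbourhood in which steps are small
  obtain ⟨ρ, hρ0, hρ1, hρ2⟩ : ∃ ρ : ℝ, 0 < ρ ∧ ρ ≤ δ1 ∧ ρ ≤ δ2 :=
    ⟨min δ1 δ2, lt_min hδ1 hδ2, min_le_left _ _, min_le_right _ _⟩
  -- `aR ≠ 0` because the real part grows
  have haR : aR ≠ 0 := by
    rintro rfl
    obtain ⟨t, ht⟩ : ∃ t, ∀ x ∈ U1, ∀ l : ℝ, |l| ≤ δ1 →
        r * l ^ 2 ≤ ((F t (x + l • (0 : E))).re - (F t x).re) * l ∧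
        ((F t (x + l • (0 : E))).re - (F t x).re) * l ≤ q * l ^ 2 :=
      ⟨t₀, e1.self_of_nhdsWithin ht₀⟩
    have h3 := (ht x₀ (mem_of_mem_nhds hU1) δ1 (by rw [abs_of_pos hδ1])).1
    rw [smul_zero, add_zero, sub_self, zero_mul] at h3
    have : 0 < r * δ1 ^ 2 := by positivity
    linarith
  have haR0 : 0 < ‖aR‖ := norm_pos_iff.mpr haR
  refine RegAt.of_angular' cont hom ht₀ hne (L := L) (κ := |B| * r / 2) (by positivity)
    ((-(SignType.sign B : ℝ)) • aR)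
    ⟨U0 ∩ U1 ∩ U2 ∩ Metric.ball x₀ (ρ * ‖aR‖ / 2), ?_, ?_⟩
  · exact inter_mem (inter_mem (inter_mem hU0 hU1) hU2) (Metric.ball_mem_nhds _ (by positivity))
  filter_upwards [e0, e1, e2] with t t0 t1 t2 x hx
  refine ⟨fun y hy => t0 y hy.1.1.1 x hx.1.1.1, fun τ hτ => ?_⟩
  obtain ⟨S, hS⟩ : ∃ S : ℝ, S = (SignType.sign B : ℝ) := ⟨_, rfl⟩
  rw [← hS] at hτ ⊢
  have hSB : S * B = |B| := by rw [hS]; exact sign_mul_self B
  have hSS : S * S = 1 := by
    rw [hS]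
    rcases lt_or_gt_of_ne hB with h | h
    · rw [sign_neg h]; simp
    · rw [sign_pos h]; simp
  have hSabs : |S| = 1 := by
    have h3 : |S| * |S| = 1 := by rw [← abs_mul, hSS, abs_one]
    nlinarith [abs_nonneg S]
  rw [smul_smul] at hτ ⊢
  obtain ⟨l, hl⟩ : ∃ l : ℝ, l = τ * -S := ⟨_, rfl⟩
  rw [← hl] at hτ ⊢
  have hl2 : l ^ 2 = τ ^ 2 := by
    rw [hl]
    calc (τ * -S) ^ 2 = τ ^ 2 * (S * S) := by ring
      _ = τ ^ 2 := by rw [hSS, mul_one]
  have hlρ : |l| ≤ ρ := by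
    have h3 : ‖l • aR‖ ≤ ρ * ‖aR‖ := by
      have e : l • aR = (x + l • aR - x₀) - (x - x₀) := by abel
      have h4 := hτ.2
      have h5 := hx.2
      rw [Metric.mem_ball, dist_eq_norm] at h4 h5
      rw [e]
      refine (norm_sub_le _ _).trans ?_
      linarith
    rw [norm_smul, Real.norm_eq_abs] at h3
    exact le_of_mul_le_mul_right h3 haR0
  obtain ⟨p1, -⟩ := t1 x hx.1.1.2 l (hlρ.trans hρ1)
  obtain ⟨p2, p2'⟩ := t2 x hx.1.2 l (hlρ.trans hρ2)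
  rw [inner_I_mul, Complex.sub_re, Complex.sub_im, ← hA, ← hBd]
  obtain ⟨DR, hDR⟩ : ∃ D : ℝ, D = (F t (x + l • aR)).re - (F t x).re := ⟨_, rfl⟩
  obtain ⟨DI, hDI⟩ : ∃ D : ℝ, D = (F t (x + l • aR)).im - (F t x).im := ⟨_, rfl⟩
  rw [← hDR] at p1 ⊢
  rw [← hDI] at p2 p2' ⊢
  rw [hl2] at p1 p2 p2'
  have hτl : τ = -(S * l) := by
    rw [hl]
    calc τ = τ * 1 := by ring
      _ = τ * (S * S) := by rw [hSS]
      _ = _ := by ring
  -- real part
  have k1 : |B| * (r * τ ^ 2) ≤ τ * (-B * DR) := by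
    have e : τ * (-B * DR) = (S * B) * (DR * l) := by rw [hτl]; ring
    rw [e, hSB]
    exact mul_le_mul_of_nonneg_left p1 hB0.le
  have k2 : A * ((|B| - σ) * τ ^ 2) ≤ τ * (A * DI) := by
    have e : τ * (A * DI) = A * (-S * (DI * l)) := by rw [hτl]; ring
    rw [e]
    refine mul_le_mul_of_nonneg_left ?_ h0
    have hτ2 : 0 ≤ τ ^ 2 := sq_nonneg _
    -- `S = ± 1`
    rcases lt_or_gt_of_ne hB with h | h
    · have hS1 : S = -1 := by rw [hS, sign_neg h]; simp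
      have hBB : |B| = -B := abs_of_neg h
      rw [hS1, hBB]
      linarith
    · have hS1 : S = 1 := by rw [hS, sign_pos h]; simp
      have hBB : |B| = B := abs_of_pos h
      rw [hS1, hBB]
      linarith
  have k3 : A * σ * τ ^ 2 ≤ |B| * r / 2 * τ ^ 2 := mul_le_mul_of_nonneg_right hσ (sq_nonneg _)
  have k4 : 0 ≤ A * |B| * τ ^ 2 := by positivity
  have e : τ * (-B * DR + A * DI) = τ * (-B * DR) + τ * (A * DI) := by ring
  rw [e]
  nlinarith

/-- Angular case: value positive real, imaginary part grows along `aI`. -/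
theorem RegAt.of_re_pos {F : T → E → ℂ}
    (cont : ContinuousOn (fun p : T × E => F p.1 p.2) (s ×ˢ univ))
    (hom : ∀ t ∈ s, Hom1 (F t)) (ht₀ : t₀ ∈ s) (hL : LocLip s F t₀ x₀)
    (h0 : 0 < (F t₀ x₀).re) (hB : (F t₀ x₀).im = 0) {aI : E} (hr : 0 < r)
    (h4 : Sl s (fun t x => (F t x).im) t₀ x₀ aI r q) : RegAt s F t₀ x₀ := by
  have hne : F t₀ x₀ ≠ 0 := by
    intro h
    rw [h] at h0
    exact lt_irrefl _ h0
  obtain ⟨A, hA⟩ : ∃ A : ℝ, A = (F t₀ x₀).re := ⟨_, rfl⟩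
  rw [← hA] at h0
  obtain ⟨L, U0, hU0, e0⟩ := hL
  obtain ⟨U1, hU1, δ1, hδ1, e1⟩ := h4.two
  have haR : aI ≠ 0 := by
    rintro rfl
    have ht : ∀ x ∈ U1, ∀ l : ℝ, |l| ≤ δ1 →
        r * l ^ 2 ≤ ((F t₀ (x + l • (0 : E))).im - (F t₀ x).im) * l ∧
        ((F t₀ (x + l • (0 : E))).im - (F t₀ x).im) * l ≤ q * l ^ 2 :=
      e1.self_of_nhdsWithin ht₀
    have h3 := (ht x₀ (mem_of_mem_nhds hU1) δ1 (by rw [abs_of_pos hδ1])).1
    rw [smul_zero, add_zero, sub_self, zero_mul] at h3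
    have : 0 < r * δ1 ^ 2 := by positivity
    linarith
  have haR0 : 0 < ‖aI‖ := norm_pos_iff.mpr haR
  refine RegAt.of_angular' cont hom ht₀ hne (L := L) (κ := A * r) (by positivity) aI
    ⟨U0 ∩ U1 ∩ Metric.ball x₀ (δ1 * ‖aI‖ / 2), ?_, ?_⟩
  · exact inter_mem (inter_mem hU0 hU1) (Metric.ball_mem_nhds _ (by positivity))
  filter_upwards [e0, e1] with t t0 t1 x hx
  refine ⟨fun y hy => t0 y hy.1.1 x hx.1.1, fun τ hτ => ?_⟩
  have hlρ : |τ| ≤ δ1 := by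
    have h3 : ‖τ • aI‖ ≤ δ1 * ‖aI‖ := by
      have e : τ • aI = (x + τ • aI - x₀) - (x - x₀) := by abel
      have h4 := hτ.2
      have h5 := hx.2
      rw [Metric.mem_ball, dist_eq_norm] at h4 h5
      rw [e]
      refine (norm_sub_le _ _).trans ?_
      linarith
    rw [norm_smul, Real.norm_eq_abs] at h3
    exact le_of_mul_le_mul_right h3 haR0
  obtain ⟨p1, -⟩ := t1 x hx.1.2 τ hlρ
  rw [inner_I_mul, Complex.sub_re, Complex.sub_im, ← hA, hB]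
  have e : τ * (-0 * ((F t (x + τ • aI)).re - (F t x).re) +
      A * ((F t (x + τ • aI)).im - (F t x).im)) =
      A * (((F t (x + τ • aI)).im - (F t x).im) * τ) := by ring
  rw [e, mul_assoc]
  exact mul_le_mul_of_nonneg_left p1 h0.le

/-- **Regularity from two directions** at a point with nonnegative real part. -/
theorem RegAt.of_fields {F : T → E → ℂ}
    (cont : ContinuousOn (fun p : T × E => F p.1 p.2) (s ×ˢ univ))
    (hom : ∀ t ∈ s, Hom1 (F t)) (ht₀ : t₀ ∈ s) (hL : LocLip s F t₀ x₀)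
    (h0 : 0 ≤ (F t₀ x₀).re) {aR aI : E} (hr : 0 < r) (hq : 0 ≤ q)
    (h1 : Sl s (fun t x => (F t x).re) t₀ x₀ aR r q)
    (h2 : ∀ σ > 0, Sl s (fun t x => (F t x).im) t₀ x₀ aR
      (-(F t₀ x₀).im - σ) (-(F t₀ x₀).im + σ))
    (h3 : Sl s (fun t x => (F t x).re) t₀ x₀ aI (-q) q)
    (h4 : Sl s (fun t x => (F t x).im) t₀ x₀ aI r q) : RegAt s F t₀ x₀ := by
  by_cases hB : (F t₀ x₀).im = 0
  · rcases h0.lt_or_eq with h | h
    · exact RegAt.of_re_pos cont hom ht₀ hL h hB hr h4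
    · refine RegAt.of_dirs hr hq h1 (fun σ hσ => ?_) h3 h4
      have := h2 σ hσ
      rw [hB] at this
      simpa using this
  · exact RegAt.of_im_ne cont hom ht₀ hL h0 hB hr h1 h2

end Vale.Agent.P268.T.H291
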