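import Vale.Agent.P268.T.H291.Dirs3
import Vale.Agent.P268.T.S708.Tri

/-!
# P268, topological half: pieces (708) from slopes (`Sl`)
-/

set_option linter.unusedSectionVars false

namespace Vale.Agent.P268.T.H291

open Set Filter Topology
open Vale.Agent.P268.T

variable {E : Type*} [NormedAddCommGroup E] [NormedSpace ℝ E]
  {T : Type*} [TopologicalSpace T]
  {s : Set T} {g : T → E → ℝ} {t₀ : T} {x₀ a n e : E} {r q : ℝ}

/-- Increments along a line from slopes. -/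
theorem Sl.lineInc (h : Sl s g t₀ x₀ a (-q) q) (hq : 0 ≤ q) :
    LineInc s t₀ x₀ a fun t x γ => |g t (x + γ • a) - g t x| ≤ q * |γ| := by
  by_cases ha : a = 0
  · subst ha
    refine ⟨univ, univ_mem, Eventually.of_forall fun t x _ γ _ => ?_⟩
    beta_reduce
    rw [smul_zero, add_zero, sub_self, abs_zero]
    positivity
  · obtain ⟨U, hU, δ, hδ, h⟩ := h.two
    have h1 : LineInc s t₀ x₀ a fun t x γ => -q * γ ^ 2 ≤ (g t (x + γ • a) - g t x) * γ ∧
        (g t (x + γ • a) - g t x) * γ ≤ q * γ ^ 2 := by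
      have h2 : LineInc s t₀ x₀ a fun t x γ => |γ| ≤ δ → -q * γ ^ 2 ≤
          (g t (x + γ • a) - g t x) * γ ∧ (g t (x + γ • a) - g t x) * γ ≤ q * γ ^ 2 :=
        ⟨U, hU, h.mono fun t ht x hx γ _ hγ => ht x hx γ hγ⟩
      exact (h2.and (LineInc.small ha hδ)).mono fun t x γ k => k.1 k.2
    refine h1.mono fun t x γ k => ?_
    refine abs_le_of_two hq (fun h0 => ?_) k.1 k.2
    rw [h0, zero_smul, add_zero, sub_self]

theorem Sl.flat (h : ∀ σ > 0, Sl s g t₀ x₀ n (-σ) σ) : Flat s g t₀ x₀ n :=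
  fun σ hσ => (h σ hσ).lineInc hσ.le

theorem Sl.dirLip (h : Sl s g t₀ x₀ e r q) : DirLip s g t₀ x₀ e := by
  have h1 : Sl s g t₀ x₀ e (-(|r| + |q|)) (|r| + |q|) := by
    refine h.mono ?_ ?_
    · linarith [neg_abs_le r, abs_nonneg q]
    · linarith [le_abs_self q, abs_nonneg r]
  exact ⟨_, h1.lineInc (by positivity)⟩

/-- **Pieces from slopes.** -/
theorem Piece.of_sl (h1 : Sl s g t₀ x₀ e r q) (hr : 0 < r)
    (h2 : ∀ σ > 0, Sl s g t₀ x₀ n (-σ) σ) : Piece s t₀ x₀ e n g :=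
  ⟨h1.grows hr, Sl.flat h2, h1.dirLip⟩

end Vale.Agent.P268.T.H291
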