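import Vale.Agent.P268.T.H291.Piece
import Vale.Agent.P268.T.K372.BIm
import Vale.Agent.P268.T.K372.Scales

/-!
# P268, topological half, block B3, stage S3: the front move

`kF K δ ρ M t r 1 (cV δ d' θ G (K ·))`, `t` the parameter of the front `frV M t 0`.
-/

set_option linter.unusedSectionVars false

namespace Vale.Agent.P268.T.H291

open Set Filter Topology
open Vale.Agent.P268.T Vale.Agent.P268.T.K372

variable {ι σ : Type} [Fintype ι] [Nonempty ι] [Fintype σ] [Nonempty σ]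
  {K : σ → ι → ℕ} {G : (ι → ℕ) → ℝ} {δ ρ M r d' θ : ℝ}

/-- Uniform bound for the slopes of the rays. -/
theorem exists_P (K : σ → ι → ℕ) : ∃ P : ℝ, 0 ≤ P ∧ ∀ k j, (K k j : ℝ) ≤ P := by
  refine ⟨∑ k, ∑ j, (K k j : ℝ), by positivity, fun k j => ?_⟩
  have h1 : (K k j : ℝ) ≤ ∑ j, (K k j : ℝ) :=
    Finset.single_le_sum (f := fun j => (K k j : ℝ)) (fun _ _ => Nat.cast_nonneg _)
      (Finset.mem_univ j)
  exact h1.trans (Finset.single_le_sum (f := fun k => ∑ j, (K k j : ℝ))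
    (fun _ _ => by positivity) (Finset.mem_univ k))

/-- The fat sheets grow along `lam • dirD + (-1, 0)`. -/
theorem sl_fat_comb {s : Set ℝ} {t₀ : ℝ} {K₀ : ι → ℕ} {S : Set (ι → ℕ)} {u₀ v₀ : EuclideanSpace ℝ ι}
    {L : ι → ℕ} {P : ℝ} (hP0 : 0 ≤ P) (hP : ∀ j, (L j : ℝ) ≤ P) (hρ : 0 ≤ ρ) (hL : L ∈ S) {lam e : ℝ}
    (hlam : 0 ≤ lam) (he : 0 < e) :
    Sl s (fun _ x : _ => ρ * ‖x.1‖ - ‖x.2 - phiV L x.1‖) t₀ (u₀, v₀)
      (lam • dirD K₀ S u₀ v₀ + (-oneV ι, 0))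
      (lam * (‖v₀ - phiV L u₀‖ - ρ * ‖(dirD K₀ S u₀ v₀).1‖ - e) - (ρ + P) * ‖oneV ι‖)
      (lam * (‖v₀ - phiV L u₀‖ + ρ * ‖(dirD K₀ S u₀ v₀).1‖ + e) + (ρ + P) * ‖oneV ι‖) := by
  have h1 := (sl_norm_base (s := s) (t₀ := t₀) (u₀ := u₀) (v₀ := v₀)
    (dirD K₀ S u₀ v₀)).const_mul hρ
  have h2 := Sl.dist_phi (s := s) (t₀ := t₀) (K₀ := K₀) (u₀ := u₀) (v₀ := v₀) hL he
  have h3 := (h1.sub h2).mono (r' := ‖v₀ - phiV L u₀‖ - ρ * ‖(dirD K₀ S u₀ v₀).1‖ - e)
    (q' := ‖v₀ - phiV L u₀‖ + ρ * ‖(dirD K₀ S u₀ v₀).1‖ + e) (by linarith) (by linarith)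
  have h4 := (sl_norm_base (s := s) (t₀ := t₀) (u₀ := u₀) (v₀ := v₀)
    ((-oneV ι, 0) : EuclideanSpace ℝ ι × EuclideanSpace ℝ ι)).const_mul hρ
  have h5 := sl_dist_base (s := s) (t₀ := t₀) (u₀ := u₀) (v₀ := v₀) (c := fun _ u => phiV L u)
    (L := P) ⟨univ, univ_mem, Eventually.of_forall fun _ u _ u' _ => norm_phiV_sub_le L hP hP0 u u'⟩
    (-oneV ι)
  have h6 := (h4.sub h5).mono (r' := -((ρ + P) * ‖oneV ι‖)) (q' := (ρ + P) * ‖oneV ι‖)
    (by rw [norm_neg]; linarith) (by rw [norm_neg]; linarith)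
  exact ((h3.smul_dir hlam).add_dir h6).mono (by linarith) (by linarith)


/-- The front function grows along `lam • dirD + (-1, 0)`. -/
theorem sl_fr_comb {s : Set ℝ} {t₀ : ℝ} (hs : ∀ t ∈ s, 0 ≤ t) {K₀ : ι → ℕ}
    {S : Set (ι → ℕ)} {u₀ v₀ : EuclideanSpace ℝ ι} (hM : 0 < M) {m : ℝ} (hm : 0 ≤ m)
    (hJ : ∀ j, dirJ K₀ S u₀ j → u₀ j ≤ m) (hk : 1 < t₀ → m < mxV u₀) {lam : ℝ} (hlam : 0 ≤ lam) :
    ∃ Q, Sl s (fun t x => frV M t 0 x.1) t₀ (u₀, v₀)
      (lam • dirD K₀ S u₀ v₀ + (-oneV ι, 0)) (M / 2) Q := by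
  have he : 0 < M / (2 * (lam + 1)) := by positivity
  have h1 := sl_fr_dirD (s := s) (t₀ := t₀) (K₀ := K₀) (S := S) (u₀ := u₀) (v₀ := v₀) hM
    (c := fun t => t) continuousWithinAt_id (eventually_mem_nhdsWithin.mono hs) hm hJ hk he
  have h2 := sl_fr_one (s := s) (t₀ := t₀) M (fun t => t) (0 : EuclideanSpace ℝ ι)
    (x₀ := (u₀, v₀))
  have h3 := (h1.smul_dir hlam).add_dir h2
  refine ⟨_, h3.mono ?_ le_rfl⟩
  have h4 : lam * (M / (2 * (lam + 1))) ≤ M / 2 := by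
    rw [mul_div_assoc', div_le_div_iff₀ (by positivity) (by norm_num)]
    nlinarith
  linarith

/-- Sheets are flat along the normal. -/
theorem sl_sheet_normal {s : Set ℝ} {t₀ : ℝ} {c : ℝ → EuclideanSpace ℝ ι → EuclideanSpace ℝ ι}
    {u₀ v₀ n : EuclideanSpace ℝ ι} (a : ℝ) (hc : BAt s c t₀ u₀)
    (hw : v₀ - c t₀ u₀ ≠ 0) (hn : inner ℝ (v₀ - c t₀ u₀) n = 0) :
    ∀ σ > 0, Sl s (shH (fun _ u => a * ‖u‖) c) t₀ (u₀, v₀) (0, n) (-σ) σ := by
  intro σ hσ
  have h1 := sl_fibre_base (s := s) (t₀ := t₀) (u₀ := u₀) (v₀ := v₀)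
    (f := fun (_ : ℝ) (u : EuclideanSpace ℝ ι) => a * ‖u‖) n
  have h2 := sl_dist_normal (s := s) (t₀ := t₀) (u₀ := u₀) (v₀ := v₀) hc hw hn hσ
  exact (h1.sub h2).mono (by linarith) (by linarith)

/-- The hypotheses of stage S3. -/
structure HypS3 (K : σ → ι → ℕ) (G : (ι → ℕ) → ℝ) (δ ρ M r d' θ s₁ : ℝ) : Prop where
  hδ0 : 0 < δ
  hδ : Fintype.card ι * δ ^ 2 < 1
  hd' : 0 ≤ d'
  hM : 0 < M
  hr : 0 < r
  hs₁ : 0 ≤ s₁
  hρN : 2 * ρ * Real.sqrt (Fintype.card ι) < 1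
  hρδ : ρ < δ / 4
  hdisp : ∀ k u, u ≠ 0 → ‖cV δ d' θ G (K k) u - phiV (K k) u‖ + r * ‖u‖ < ρ * ‖u‖
  huniq : ∀ t, s₁ ≤ t → ∀ k l u v, u ≠ 0 → frV M t 0 u ≤ 0 →
    ‖v - cV δ d' θ G (K k) u‖ = r * ‖u‖ → ‖v - cV δ d' θ G (K l) u‖ = r * ‖u‖ → k = l

section main

variable {s₁ : ℝ} (H : HypS3 K G δ ρ M r d' θ s₁)
include H

theorem HypS3.ρ_pos : 0 < ρ := by
  obtain ⟨u, hu⟩ : ∃ u : EuclideanSpace ℝ ι, u ≠ 0 := by
    refine ⟨oneV ι, fun h => ?_⟩
    have := congrArg (fun u : EuclideanSpace ℝ ι => u (Classical.arbitrary ι)) h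
    simp at this
  obtain ⟨k⟩ := (inferInstance : Nonempty σ)
  have h1 := H.hdisp k u hu
  have hn : 0 < ‖u‖ := norm_pos_iff.mpr hu
  have h2 := norm_nonneg (cV δ d' θ G (K k) u - phiV (K k) u)
  have h3 := mul_pos H.hr hn
  by_contra h4
  push Not at h4
  nlinarith

/-- The thin sheets lie strictly inside the fat ones. -/
theorem HypS3.thin_lt_fat (k : σ) {u : EuclideanSpace ℝ ι} (hu : u ≠ 0) (v : EuclideanSpace ℝ ι) :
    r * ‖u‖ - ‖v - cV δ d' θ G (K k) u‖ < ρ * ‖u‖ - ‖v - phiV (K k) u‖ := by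
  have h1 := H.hdisp k u hu
  have h2 : ‖v - phiV (K k) u‖ ≤ ‖v - cV δ d' θ G (K k) u‖ +
      ‖cV δ d' θ G (K k) u - phiV (K k) u‖ := by
    have := norm_add_le (v - cV δ d' θ G (K k) u) (cV δ d' θ G (K k) u - phiV (K k) u)
    rwa [sub_add_sub_cancel] at this
  linarith

/-- **Stage S3**: the front move is of class `R`. -/
theorem HypS3.kSys : KSys (Ici s₁) (fun k (_ : ℝ) u => (1 : ℝ) • phiV (K k) u)
    (fun k _ u => cV δ d' θ G (K k) u) (fun _ u => ρ * ‖u‖) (fun _ u => r * ‖u‖)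
    (fun t u => frV M t 0 u) (nuV δ) (fun _ x => bIm δ x) where
  cφ k := by
    refine Continuous.continuousOn ?_
    exact ((continuous_phiV (K k)).comp continuous_snd).const_smul (1 : ℝ)
  cc k := ((continuous_cV H.hδ0.le H.hd' θ G (K k)).comp continuous_snd).continuousOn
  cE₁ := by fun_prop
  cE₂ := by fun_prop
  cf := by
    have h1 := (continuous_frV (ι := ι) M).comp
      (g := fun p : (ℝ × ℝ) × EuclideanSpace ℝ ι => frV M p.1.1 p.1.2 p.2)
      (f := fun p : ℝ × EuclideanSpace ℝ ι => ((p.1, (0 : ℝ)), p.2)) (by fun_prop)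
    exact h1.continuousOn
  cβ := ((continuous_bIm H.hδ0.le).comp continuous_snd).continuousOn
  hφ k t _ c hc u := by rw [one_smul, one_smul, phiV_smul (K k) hc]
  hc k t _ c hc u := cV_smul δ d' θ G (K k) hc u
  hE₁ t _ c hc u := by
    rw [norm_smul, Real.norm_eq_abs, abs_of_nonneg hc]; ring
  hE₂ t _ c hc u := by
    rw [norm_smul, Real.norm_eq_abs, abs_of_nonneg hc]; ring
  hf t _ c hc u := frV_smul M t 0 hc u
  hβ t _ c hc x := bIm_smul hc x
  cν u₀ hu := continuousAt_nuV δ hu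
  lν t₀ _ u₀ hu := locLip_nuV H.hδ0.le hu
  ν0 u₀ hu := nuV_ne_zero H.hδ0.le H.hδ hu
  zero := by
    rintro t₀ ht₀ ⟨u₀, v₀⟩ hu h0 hβ
    have hu : u₀ ≠ 0 := hu
    have hβ : bIm δ (u₀, v₀) = 0 := hβ
    have ht₀ : s₁ ≤ t₀ := ht₀
    have hn : 0 < ‖u₀‖ := norm_pos_iff.mpr hu
    have hρ := H.ρ_pos
    obtain ⟨P, hP0, hP⟩ := exists_P K
    -- the pieces
    have hF : ∀ k, shH (fun (_ : ℝ) u => ρ * ‖u‖) (fun (_ : ℝ) u => (1 : ℝ) • phiV (K k) u) t₀
        (u₀, v₀) = ρ * ‖u₀‖ - ‖v₀ - phiV (K k) u₀‖ := fun k => by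
      simp only [shH, one_smul]
    have hY : ∀ k, shH (fun (_ : ℝ) u => r * ‖u‖) (fun (_ : ℝ) u => cV δ d' θ G (K k) u) t₀
        (u₀, v₀) = r * ‖u₀‖ - ‖v₀ - cV δ d' θ G (K k) u₀‖ := fun k => rfl
    obtain ⟨X, hX⟩ : ∃ X, X = shSup (fun (_ : ℝ) (u : EuclideanSpace ℝ ι) => ρ * ‖u‖)
        (fun k (_ : ℝ) u => (1 : ℝ) • phiV (K k) u) t₀ (u₀, v₀) := ⟨_, rfl⟩
    obtain ⟨Y, hYd⟩ : ∃ Y, Y = shSup (fun (_ : ℝ) (u : EuclideanSpace ℝ ι) => r * ‖u‖)
        (fun k (_ : ℝ) u => cV δ d' θ G (K k) u) t₀ (u₀, v₀) := ⟨_, rfl⟩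
    have hXle : ∀ k, ρ * ‖u₀‖ - ‖v₀ - phiV (K k) u₀‖ ≤ X := fun k => by
      rw [← hF k, hX]
      exact le_shSup (fun (_ : ℝ) (u : EuclideanSpace ℝ ι) => ρ * ‖u‖)
        (fun k (_ : ℝ) u => (1 : ℝ) • phiV (K k) u) t₀ (u₀, v₀) k
    have hYX : Y < X := by
      obtain ⟨k, hk⟩ := exists_shSup (fun (_ : ℝ) (u : EuclideanSpace ℝ ι) => r * ‖u‖)
        (fun k (_ : ℝ) u => cV δ d' θ G (K k) u) t₀ (u₀, v₀)
      rw [← hYd, hY k] at hk
      rw [← hk]
      exact (H.thin_lt_fat k hu v₀).trans_le (hXle k)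
    have hmax : max (min X (frV M t₀ 0 u₀)) Y = 0 := by
      rw [hX, hYd]; exact h0
    have hX0 : 0 ≤ X := by
      by_contra hcon
      push Not at hcon
      have h1 : max (min X (frV M t₀ 0 u₀)) Y < 0 :=
        max_lt ((min_le_left _ _).trans_lt hcon) (hYX.trans hcon)
      rw [hmax] at h1
      exact lt_irrefl _ h1
    obtain ⟨k₀, hk₀⟩ : ∃ k₀, ‖v₀ - phiV (K k₀) u₀‖ ≤ ρ * ‖u₀‖ := by
      obtain ⟨k, hk⟩ := exists_shSup (fun (_ : ℝ) (u : EuclideanSpace ℝ ι) => ρ * ‖u‖)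
        (fun k (_ : ℝ) u => (1 : ℝ) • phiV (K k) u) t₀ (u₀, v₀)
      rw [← hX, hF k] at hk
      exact ⟨k, by linarith⟩
    have hδρ : ∀ k, ‖v₀ - phiV (K k) u₀‖ ≤ ρ * ‖u₀‖ →
        ‖v₀ - phiV (K k) u₀‖ < δ / 4 * ‖u₀‖ := fun k hk =>
      hk.trans_lt (mul_lt_mul_of_pos_right H.hρδ hn)
    have hperpφ : ∀ k, ‖v₀ - phiV (K k) u₀‖ ≤ ρ * ‖u₀‖ →
        inner ℝ (v₀ - phiV (K k) u₀) (nuV δ u₀) = 0 := fun k hk => by
      rw [← bIm_eq H.hδ0.le (hδρ k hk).le, hβ]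
    have hperpc : ∀ k, ‖v₀ - phiV (K k) u₀‖ ≤ ρ * ‖u₀‖ →
        inner ℝ (v₀ - cV δ d' θ G (K k) u₀) (nuV δ u₀) = 0 := fun k hk => by
      rw [← bIm_eq_cV H.hδ0.le (hδρ k hk).le, hβ]
    have hν0 : nuV δ u₀ ≠ 0 := nuV_ne_zero H.hδ0.le H.hδ hu
    refine ⟨?_, ?_⟩
    · -- the growing direction
      have bφ : ∀ k, BAt (Ici s₁) (fun (_ : ℝ) u => (1 : ℝ) • phiV (K k) u) t₀ u₀ := fun k =>
        (((continuous_phiV (K k)).comp continuous_snd).const_smul (1 : ℝ)).continuousWithinAt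
      have bc : ∀ k, BAt (Ici s₁) (fun (_ : ℝ) u => cV δ d' θ G (K k) u) t₀ u₀ := fun k =>
        ((continuous_cV H.hδ0.le H.hd' θ G (K k)).comp continuous_snd).continuousWithinAt
      have b1 : BAt (Ici s₁) (fun (_ : ℝ) (u : EuclideanSpace ℝ ι) => ρ * ‖u‖) t₀ u₀ := by
        have : Continuous fun p : ℝ × EuclideanSpace ℝ ι => ρ * ‖p.2‖ := by fun_prop
        exact this.continuousWithinAt
      have b2 : BAt (Ici s₁) (fun (_ : ℝ) (u : EuclideanSpace ℝ ι) => r * ‖u‖) t₀ u₀ := by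
        have : Continuous fun p : ℝ × EuclideanSpace ℝ ι => r * ‖p.2‖ := by fun_prop
        exact this.continuousWithinAt
      have b3 : BAt (Ici s₁) (fun (t : ℝ) (u : EuclideanSpace ℝ ι) => frV M t 0 u) t₀ u₀ := by
        have h1 := (continuous_frV (ι := ι) M).comp
          (g := fun p : (ℝ × ℝ) × EuclideanSpace ℝ ι => frV M p.1.1 p.1.2 p.2)
          (f := fun p : ℝ × EuclideanSpace ℝ ι => ((p.1, (0 : ℝ)), p.2)) (by fun_prop)
        exact h1.continuousWithinAt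
      -- slopes along the normal
      have nF : ∀ k, ρ * ‖u₀‖ - ‖v₀ - phiV (K k) u₀‖ = 0 → ∀ σ > 0, Sl (Ici s₁)
          (shH (fun (_ : ℝ) u => ρ * ‖u‖) (fun (_ : ℝ) u => (1 : ℝ) • phiV (K k) u)) t₀
          (u₀, v₀) (0, nuV δ u₀) (-σ) σ := by
        intro k hk
        refine sl_sheet_normal ρ (bφ k) ?_ ?_
        · rw [one_smul]
          intro h1
          rw [h1, norm_zero] at hk
          have := mul_pos hρ hn
          linarith
        · rw [one_smul]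
          exact hperpφ k (by linarith)
      have nY : ∀ k, r * ‖u₀‖ - ‖v₀ - cV δ d' θ G (K k) u₀‖ = 0 → ∀ σ > 0, Sl (Ici s₁)
          (shH (fun (_ : ℝ) u => r * ‖u‖) (fun (_ : ℝ) u => cV δ d' θ G (K k) u)) t₀
          (u₀, v₀) (0, nuV δ u₀) (-σ) σ := by
        intro k hk
        refine sl_sheet_normal r (bc k) ?_ ?_
        · intro h1
          rw [h1, norm_zero] at hk
          have := mul_pos H.hr hn
          linarith
        · refine hperpc k ?_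
          have := H.thin_lt_fat k hu v₀
          linarith
      have nf : ∀ σ > 0, Sl (Ici s₁) (fun t (x : EuclideanSpace ℝ ι × EuclideanSpace ℝ ι) =>
          frV M t 0 x.1) t₀ (u₀, v₀) (0, nuV δ u₀) (-σ) σ := fun σ hσ =>
        (sl_fibre_base (f := fun t u => frV M t 0 u) _).mono (by linarith) (by linarith)
      by_cases hX1 : X = 0
      · -- no fat sheet is positive
        obtain ⟨S, hSd⟩ : ∃ S : Set (ι → ℕ), S = {L | ‖v₀ - phiV L u₀‖ ≤ ρ * ‖u₀‖} := ⟨_, rfl⟩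
        have hJ : ∀ j, dirJ (K k₀) S u₀ j → u₀ j ≤ 2 * (ρ * ‖u₀‖) := fun j hj =>
          dirJ_le (v₀ := v₀) (m := ρ * ‖u₀‖) (S := S) (by rw [hSd]; exact hk₀)
            (fun L hL => by rw [hSd] at hL; exact hL) hj
        have hD := norm_dirD_fst_le (v₀ := v₀) (by positivity) hJ
        obtain ⟨rr, hrr⟩ : ∃ rr, rr = ρ * ‖u₀‖ *
          (1 - 2 * ρ * Real.sqrt (Fintype.card ι)) / 2 := ⟨_, rfl⟩
        have hrr0 : 0 < rr := by
          have h1 : 0 < 1 - 2 * ρ * Real.sqrt (Fintype.card ι) := by linarith [H.hρN]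
          rw [hrr]; positivity
        obtain ⟨lam, hlam⟩ : ∃ lam, lam = ((ρ + P) * ‖oneV ι‖ + 1) / rr := ⟨_, rfl⟩
        have hlam0 : 0 ≤ lam := by rw [hlam]; positivity
        have hlam1 : lam * rr = (ρ + P) * ‖oneV ι‖ + 1 := by
          rw [hlam, div_mul_cancel₀ _ hrr0.ne']
        refine ⟨lam • dirD (K k₀) S u₀ v₀ + (-oneV ι, 0), piece_kre bφ bc b1 b2 b3 h0 ?_ ?_ ?_⟩
        · intro k _ _ hk
          rw [hF k] at hk
          have hkS : K k ∈ S := by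
            rw [hSd]
            show ‖v₀ - phiV (K k) u₀‖ ≤ ρ * ‖u₀‖
            linarith
          have h1 := sl_fat_comb (s := Ici s₁) (t₀ := t₀) (K₀ := K k₀) (S := S) (u₀ := u₀)
            (v₀ := v₀) (L := K k) hP0 (hP k) hρ.le hkS hlam0 hrr0
          have h2 : Sl (Ici s₁)
              (shH (fun (_ : ℝ) u => ρ * ‖u‖) (fun (_ : ℝ) u => (1 : ℝ) • phiV (K k) u)) t₀
              (u₀, v₀) (lam • dirD (K k₀) S u₀ v₀ + (-oneV ι, 0))
              (lam * (‖v₀ - phiV (K k) u₀‖ - ρ * ‖(dirD (K k₀) S u₀ v₀).1‖ - rr) -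
                (ρ + P) * ‖oneV ι‖)
              (lam * (‖v₀ - phiV (K k) u₀‖ + ρ * ‖(dirD (K k₀) S u₀ v₀).1‖ + rr) +
                (ρ + P) * ‖oneV ι‖) :=
            h1.congr ⟨univ, univ_mem, Eventually.of_forall fun t x _ => by
              simp only [shH, one_smul]⟩
          refine Piece.of_sl h2 ?_ (nF k hk)
          have h3 : rr ≤ ‖v₀ - phiV (K k) u₀‖ - ρ * ‖(dirD (K k₀) S u₀ v₀).1‖ - rr := by
            have h4 := mul_le_mul_of_nonneg_left hD hρ.le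
            have h5 : ‖v₀ - phiV (K k) u₀‖ = ρ * ‖u₀‖ := by linarith
            rw [h5, hrr]
            nlinarith
          have h4 := mul_le_mul_of_nonneg_left h3 hlam0
          linarith
        · intro hf0 _
          have hs : ∀ t ∈ Ici s₁, 0 ≤ t := fun t ht => H.hs₁.trans ht
          have hk : 1 < t₀ → 2 * (ρ * ‖u₀‖) < mxV u₀ := by
            intro ht1
            refine lt_mxV_of_frV_le (M := M) (c := t₀) (ε := 0) H.hM ht1.le hu ?_ ?_ ?_
            · rw [zero_mul]; exact hf0.le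
            · have h1 : (2 * ρ * Real.sqrt (Fintype.card ι)) * ‖u₀‖ < 1 * ‖u₀‖ :=
                mul_lt_mul_of_pos_right H.hρN hn
              linarith
            · rw [mul_zero]; exact H.hM
          obtain ⟨Q, h1⟩ := sl_fr_comb (s := Ici s₁) (t₀ := t₀) hs (K₀ := K k₀) (S := S)
            (u₀ := u₀) (v₀ := v₀) H.hM (by positivity) hJ hk hlam0
          exact Piece.of_sl h1 (by have := H.hM; positivity) nf
        · intro k _ hk
          rw [hY k] at hk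
          have h1 := H.thin_lt_fat k hu v₀
          have h2 := hXle k
          linarith
      · -- a fat sheet is positive: only the front and the thin sheets matter
        have hXpos : 0 < X := lt_of_le_of_ne hX0 (Ne.symm hX1)
        have hf : frV M t₀ 0 u₀ ≤ 0 := by
          by_contra hcon
          push Not at hcon
          have h1 : 0 < min X (frV M t₀ 0 u₀) := lt_min hXpos hcon
          have h2 := le_max_left (min X (frV M t₀ 0 u₀)) Y
          rw [hmax] at h2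
          linarith
        by_cases hth : ∃ k₁, ‖v₀ - cV δ d' θ G (K k₁) u₀‖ = r * ‖u₀‖
        · obtain ⟨k₁, hk₁⟩ := hth
          obtain ⟨L, hL0, hL⟩ : ∃ L : ℝ, 0 ≤ L ∧ ∀ u u', ‖cV δ d' θ G (K k₁) u -
              cV δ d' θ G (K k₁) u'‖ ≤ L * ‖u - u'‖ :=
            ⟨max (P + |θ * G (K k₁)| * lipEta ι δ d') 0, le_max_right _ _, fun u u' =>
              (norm_cV_sub_le H.hδ0.le H.hd' θ G (K k₁) (hP k₁) hP0 u u').trans
                (mul_le_mul_of_nonneg_right (le_max_left _ _) (norm_nonneg _))⟩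
          obtain ⟨rr, hrr⟩ : ∃ rr, rr = r * ‖u₀‖ / 2 := ⟨_, rfl⟩
          have hrr0 : 0 < rr := by
            have := H.hr
            rw [hrr]; positivity
          obtain ⟨lam, hlam⟩ : ∃ lam, lam = ((r + L) * ‖oneV ι‖ + 1) / rr := ⟨_, rfl⟩
          have hlam0 : 0 ≤ lam := by
            have := H.hr
            rw [hlam]; positivity
          have hlam1 : lam * rr = (r + L) * ‖oneV ι‖ + 1 := by
            rw [hlam, div_mul_cancel₀ _ hrr0.ne']
          obtain ⟨w, hw⟩ : ∃ w, w = v₀ - cV δ d' θ G (K k₁) u₀ := ⟨_, rfl⟩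
          refine ⟨lam • ((0, -w) : EuclideanSpace ℝ ι × EuclideanSpace ℝ ι) + (-oneV ι, 0),
            piece_kre bφ bc b1 b2 b3 h0 ?_ ?_ ?_⟩
          · intro k _ hk _
            rw [← hX] at hk
            exact absurd hk hX1
          · intro _ _
            have h1 := (sl_fibre_base (s := Ici s₁) (t₀ := t₀) (u₀ := u₀) (v₀ := v₀)
              (f := fun t u => frV M t 0 u) (-w)).smul_dir hlam0
            have h2 := h1.add_dir (sl_fr_one (s := Ici s₁) (t₀ := t₀) M (fun t => t)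
              (0 : EuclideanSpace ℝ ι) (x₀ := (u₀, v₀)))
            exact Piece.of_sl h2 (by have := H.hM; linarith) nf
          · intro k _ hk
            rw [hY k] at hk
            obtain rfl : k = k₁ := H.huniq t₀ ht₀ k k₁ u₀ v₀ hu hf (by linarith) hk₁
            have a1 := (sl_norm_base (s := Ici s₁) (t₀ := t₀) (u₀ := u₀) (v₀ := v₀)
              ((0, -w) : EuclideanSpace ℝ ι × EuclideanSpace ℝ ι)).const_mul H.hr.le
            have a2 := sl_dist_fibre (s := Ici s₁) (t₀ := t₀) (u₀ := u₀) (v₀ := v₀)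
              (c := fun (_ : ℝ) u => cV δ d' θ G (K k) u) (bc k) hrr0
            beta_reduce at a2
            rw [← hw] at a2
            have a3 := (a1.sub a2).smul_dir hlam0
            have a4 := (sl_norm_base (s := Ici s₁) (t₀ := t₀) (u₀ := u₀) (v₀ := v₀)
              ((-oneV ι, 0) : EuclideanSpace ℝ ι × EuclideanSpace ℝ ι)).const_mul H.hr.le
            have a5 := sl_dist_base (s := Ici s₁) (t₀ := t₀) (u₀ := u₀) (v₀ := v₀)
              (c := fun (_ : ℝ) u => cV δ d' θ G (K k) u) (L := L)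
              ⟨univ, univ_mem, Eventually.of_forall fun _ u _ u' _ => hL u u'⟩ (-oneV ι)
            have a6 := a3.add_dir (a4.sub a5)
            refine Piece.of_sl (g := shH (fun (_ : ℝ) u => r * ‖u‖)
              (fun (_ : ℝ) u => cV δ d' θ G (K k) u)) a6 ?_ (nY k hk)
            simp only [norm_zero, norm_neg]
            have h5 : ‖w‖ = r * ‖u₀‖ := by rw [hw]; exact hk₁
            rw [h5]
            have h6 : r * ‖u₀‖ = 2 * rr := by rw [hrr]; ring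
            rw [h6]
            nlinarith
        · push Not at hth
          refine ⟨(-oneV ι, 0), piece_kre bφ bc b1 b2 b3 h0 ?_ ?_ ?_⟩
          · intro k _ hk _
            rw [← hX] at hk
            exact absurd hk hX1
          · intro _ _
            exact Piece.of_sl (sl_fr_one (s := Ici s₁) (t₀ := t₀) M (fun t => t)
              (0 : EuclideanSpace ℝ ι) (x₀ := (u₀, v₀))) H.hM nf
          · intro k _ hk
            rw [hY k] at hk
            exact absurd (by linarith) (hth k)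
    · refine ⟨fun _ u => cV δ d' θ G (K k₀) u, locLip_cV H.hδ0.le H.hd' G (K k₀) u₀, ?_,
        bIm_eventually H.hδ0.le (hδρ k₀ hk₀)⟩
      exact ((continuous_cV H.hδ0.le H.hd' θ G (K k₀)).comp continuous_snd).continuousWithinAt

/-- **Stage S3**: the front may be moved freely, as long as `s ≥ s₁`. -/
theorem HypS3.veq {a b : ℝ} (ha : s₁ ≤ a) (hb : s₁ ≤ b) :
    VEq (kF K δ ρ M a r 1 fun k => cV δ d' θ G (K k))
      (kF K δ ρ M b r 1 fun k => cV δ d' θ G (K k)) :=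
  H.kSys.rFam.veq isPreconnected_Ici ha hb

end main

/-- The scales of block B3 satisfy the hypotheses of stage S3 as soon as `C ≥ 16 N²`. -/
theorem HypS3.of_scales {C ε d κ ε₁ s₀ : ℝ} (h : ScalesB3 K C G δ ε θ d d' κ ε₁ M s₀)
    (hC : 16 * (Fintype.card ι : ℝ) ^ 2 ≤ C) : HypS3 K G δ (2 * ε) M (2 * ε₁) d' θ d := by
  have hN : (1 : ℝ) ≤ Fintype.card ι := by exact_mod_cast Fintype.card_pos
  have hN2 : (1 : ℝ) ≤ (Fintype.card ι : ℝ) ^ 2 := by nlinarith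
  have hNN : (Fintype.card ι : ℝ) ≤ (Fintype.card ι : ℝ) ^ 2 := by nlinarith
  have hsN : Real.sqrt (Fintype.card ι) ≤ Fintype.card ι :=
    Real.sqrt_le_iff.mpr ⟨by linarith, by nlinarith⟩
  have hC16 : 16 ≤ C := by linarith
  have hε0 := h.hε0
  refine ⟨h.hδ0, h.hδ, h.hd'0, ?_, ?_, h.hd0.le, ?_, ?_, ?_, ?_⟩
  · have := h.hM
    linarith
  · have := h.hε₁0
    linarith
  · have h1 : Real.sqrt (Fintype.card ι) * 16 ≤ C := by linarith
    have h2 := mul_le_mul_of_nonneg_left h1 hε0.le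
    have h3 := h.hε1
    nlinarith
  · have h1 := h.hεδ
    have h2 := mul_le_mul_of_nonneg_right hC16 hε0.le
    have h3 := h.hδ0
    linarith
  · intro k u hu
    have hn : 0 < ‖u‖ := norm_pos_iff.mpr hu
    rw [norm_cV_sub_phiV]
    have h1 : 0 ≤ θ * G (K k) := mul_nonneg h.hθ0.le (h.hG0 _)
    rw [abs_of_nonneg h1]
    have h2 := norm_etaV_le h.hδ0.le h.hd'0 u
    have h3 := mul_le_mul_of_nonneg_left h2 h1
    have h4 : (16 * (Fintype.card ι : ℝ) ^ 2) * (θ * G (K k)) ≤ ε := by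
      have h5 := mul_le_mul_of_nonneg_right hC h1
      have h6 := h.hθε k
      linarith
    have h5 := mul_le_mul_of_nonneg_right h4 hn.le
    have h6 : 16 * ε₁ ≤ ε := by
      have h7 := mul_le_mul_of_nonneg_right hC16 h.hε₁0.le
      have h8 := h.hε₁ε
      linarith
    have h7 := mul_le_mul_of_nonneg_right h6 hn.le
    have h8 := mul_pos hε0 hn
    nlinarith
  · intro t ht k l u v hu hf hk hl
    exact h.thin_unique (by linarith) ht hu (hf.trans (mul_nonneg hε0.le (norm_nonneg u)))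
      hk.le hl.le

/-- **Stage S3 of block B3.** The front moves from `s = 2` to `s = 2 d`, the fat sheets
undeformed (radius `2 ε`), the thin sheets separated (radius `2 ε₁`). -/
theorem stageS3 {C ε d κ ε₁ s₀ : ℝ} (h : ScalesB3 K C G δ ε θ d d' κ ε₁ M s₀)
    (hC : 16 * (Fintype.card ι : ℝ) ^ 2 ≤ C) :
    VEq (kF K δ (2 * ε) M 2 (2 * ε₁) 1 fun k => cV δ d' θ G (K k))
      (kF K δ (2 * ε) M (2 * d) (2 * ε₁) 1 fun k => cV δ d' θ G (K k)) :=
  (HypS3.of_scales h hC).veq (by linarith [h.hd1]) (by linarith [h.hd0])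

/-- Stage S3 between two arbitrary positions of the front. -/
theorem stageS3' {C ε d κ ε₁ s₀ : ℝ} (h : ScalesB3 K C G δ ε θ d d' κ ε₁ M s₀)
    (hC : 16 * (Fintype.card ι : ℝ) ^ 2 ≤ C) {a b : ℝ} (ha : d ≤ a) (hb : d ≤ b) :
    VEq (kF K δ (2 * ε) M a (2 * ε₁) 1 fun k => cV δ d' θ G (K k))
      (kF K δ (2 * ε) M b (2 * ε₁) 1 fun k => cV δ d' θ G (K k)) :=
  (HypS3.of_scales h hC).veq ha hb

end Vale.Agent.P268.T.H291
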